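import Vale.Agent.P216.LS.Seg
import Vale.Agent.P216.B64.Goals
import Vale.Agent.P216.H126L.Lip
import Mathlib.Geometry.Euclidean.Angle.Unoriented.TriangleInequality

/-!
# The round sphere: the unit sphere with the angle metric

`Rnd n` is the unit sphere of dimension `n` with `dist x y = angle x y`; `rndHomeo n` is the
homeomorphism to the sphere with the chordal metric; `uniqSeg_rnd : UniqSeg (Rnd n) π`.
-/

open Set Topology Real InnerProductGeometry

noncomputable section

namespace Vale.Agent.P216.Q633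

open LS B64

/-- The unit sphere (to be equipped with the angle metric). -/
structure Rnd (n : ℕ) : Type where
  /-- the point of the unit sphere -/
  pt : Sph n

variable {n : ℕ}

/-- the vector -/
def Rnd.v (x : Rnd n) : EuclideanSpace ℝ (Fin (n + 1)) := x.pt

theorem Rnd.norm_v (x : Rnd n) : ‖x.v‖ = 1 := norm_eq_of_mem_sphere x.pt

theorem Rnd.ext_v {x y : Rnd n} (h : x.v = y.v) : x = y := by
  cases x; cases y
  exact congrArg _ (Subtype.ext h)

theorem inner_v (x y : Rnd n) : inner ℝ x.v y.v = cos (angle x.v y.v) := by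
  rw [cos_angle, x.norm_v, y.norm_v, mul_one, div_one]

theorem eq_of_inner {x y : Rnd n} (h : inner ℝ x.v y.v = 1) : x = y :=
  Rnd.ext_v ((inner_eq_one_iff_of_norm_eq_one x.norm_v y.norm_v).1 h)

instance : MetricSpace (Rnd n) where
  dist x y := angle x.v y.v
  dist_self x := angle_self (by
    intro h
    have := x.norm_v
    rw [h, norm_zero] at this
    exact zero_ne_one this)
  dist_comm x y := angle_comm _ _
  dist_triangle x y z := angle_le_angle_add_angle _ _ _
  eq_of_dist_eq_zero {x y} h := eq_of_inner (by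
    change angle x.v y.v = 0 at h
    rw [inner_v, h, cos_zero])

theorem dist_rnd (x y : Rnd n) : dist x y = angle x.v y.v := rfl

theorem cos_dist (x y : Rnd n) : cos (dist x y) = inner ℝ x.v y.v := (inner_v x y).symm

theorem dist_nonneg_le (x y : Rnd n) : 0 ≤ dist x y ∧ dist x y ≤ π :=
  ⟨angle_nonneg _ _, angle_le_pi _ _⟩

theorem dist_eq_of_cos {x y : Rnd n} {a : ℝ} (h0 : 0 ≤ a) (h1 : a ≤ π)
    (h : inner ℝ x.v y.v = cos a) : dist x y = a := by
  have h2 := dist_nonneg_le x y
  exact injOn_cos ⟨h2.1, h2.2⟩ ⟨h0, h1⟩ ((cos_dist x y).trans h)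

/-- **Unique short segments**, up to the diameter. -/
theorem uniqSeg_rnd : UniqSeg (Rnd n) π := by
  intro x y hxy t ht
  set θ := dist x y with hθ
  have h0 : 0 ≤ θ := dist_nonneg
  rcases h0.eq_or_lt with h | h
  · refine ⟨x, ?_, fun z hz => ?_⟩
    · rw [← h]
      simp only [dist_self, mul_zero, true_and]
      rw [← hθ, ← h]
    · rw [← h, mul_zero] at hz
      exact (dist_eq_zero.1 hz.1).symm
  · set a := (1 - t) * θ with ha
    set b := t * θ with hb
    have hab : a + b = θ := by rw [ha, hb]; ring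
    have ha0 : 0 ≤ a := mul_nonneg (by linarith [ht.2]) h0
    have hb0 : 0 ≤ b := mul_nonneg ht.1 h0
    have hsin : 0 < sin θ := sin_pos_of_pos_of_lt_pi h hxy
    have hxy' : inner ℝ x.v y.v = cos θ := (cos_dist x y).symm
    have hyx' : inner ℝ y.v x.v = cos θ := by rw [real_inner_comm, hxy']
    have hxx : inner ℝ x.v x.v = (1 : ℝ) := by rw [real_inner_self_eq_norm_sq, x.norm_v, one_pow]
    have hyy : inner ℝ y.v y.v = (1 : ℝ) := by rw [real_inner_self_eq_norm_sq, y.norm_v, one_pow]
    have hs : sin θ = sin a * cos b + cos a * sin b := by rw [← hab, sin_add]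
    have hc : cos θ = cos a * cos b - sin a * sin b := by rw [← hab, cos_add]
    have ea := sin_sq_add_cos_sq a
    have eb := sin_sq_add_cos_sq b
    set w := (sin a / sin θ) • x.v + (sin b / sin θ) • y.v with hw
    have hiw : ∀ u, inner ℝ w u = (sin a * inner ℝ x.v u + sin b * inner ℝ y.v u) / sin θ := by
      intro u
      rw [hw, inner_add_left, inner_smul_left, inner_smul_left]
      simp only [RCLike.conj_to_real]
      field_simp
    have hwx : inner ℝ w x.v = cos b := by
      rw [hiw, hxx, hyx', div_eq_iff hsin.ne', hs, hc]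
      linear_combination (-sin a) * eb
    have hwy : inner ℝ w y.v = cos a := by
      rw [hiw, hyy, hxy', div_eq_iff hsin.ne', hs, hc]
      linear_combination (-sin b) * ea
    have hww : inner ℝ w w = (1 : ℝ) := by
      rw [hiw, real_inner_comm w x.v, real_inner_comm w y.v, hwx, hwy, div_eq_iff hsin.ne', hs]
      ring
    have hwn : ‖w‖ = 1 := by
      have h1 : ‖w‖ ^ 2 = 1 := by rw [← real_inner_self_eq_norm_sq, hww]
      have h2 := norm_nonneg w
      nlinarith
    have hz : ∀ z : Rnd n, dist x z = b → dist z y = a → inner ℝ w z.v = (1 : ℝ) := by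
      intro z h1 h2
      have e1 : inner ℝ x.v z.v = cos b := by rw [← cos_dist, h1]
      have e2 : inner ℝ y.v z.v = cos a := by rw [real_inner_comm, ← cos_dist, h2]
      rw [hiw, e1, e2, div_eq_iff hsin.ne', hs]
      ring
    let Z : Rnd n := ⟨⟨w, by rw [mem_sphere_zero_iff_norm, hwn]⟩⟩
    refine ⟨Z, ⟨?_, ?_⟩, fun z hz' => ?_⟩
    · refine dist_eq_of_cos hb0 (by linarith) ?_
      rw [real_inner_comm]
      exact hwx
    · exact dist_eq_of_cos ha0 (by linarith) hwy
    · exact (eq_of_inner (x := Z) (hz z hz'.1 hz'.2)).symm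

/-! ### Comparison with the chordal metric -/

theorem chord_sq (x y : Rnd n) : dist x.pt y.pt ^ 2 = (2 * sin (dist x y / 2)) ^ 2 := by
  have h1 : dist x.pt y.pt = ‖x.v - y.v‖ := by rw [Subtype.dist_eq, dist_eq_norm]; rfl
  rw [h1, @norm_sub_sq_real, x.norm_v, y.norm_v, inner_v, ← dist_rnd]
  have h2 : cos (dist x y) = 1 - 2 * sin (dist x y / 2) ^ 2 := by
    have := cos_two_mul (dist x y / 2)
    rw [mul_div_cancel₀ _ (two_ne_zero' ℝ)] at this
    rw [this, cos_sq']
    ring
  rw [h2]
  ring

theorem chord_eq (x y : Rnd n) : dist x.pt y.pt = 2 * sin (dist x y / 2) := by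
  have h := dist_nonneg_le x y
  have h1 : 0 ≤ 2 * sin (dist x y / 2) :=
    mul_nonneg two_pos.le (sin_nonneg_of_nonneg_of_le_pi (by linarith) (by linarith [pi_pos]))
  exact (pow_left_inj₀ dist_nonneg h1 two_ne_zero).1 (chord_sq x y)

theorem chord_le (x y : Rnd n) : dist x.pt y.pt ≤ dist x y := by
  rw [chord_eq]
  have := sin_le (x := dist x y / 2) (by linarith [(dist_nonneg_le x y).1])
  linarith

theorem dist_le_chord (x y : Rnd n) : dist x y ≤ π / 2 * dist x.pt y.pt := by
  have h := dist_nonneg_le x y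
  have h1 := mul_le_sin (x := dist x y / 2) (by linarith) (by linarith)
  rw [chord_eq]
  have h2 : π / 2 * (2 / π * (dist x y / 2)) ≤ π / 2 * sin (dist x y / 2) := by
    have := pi_pos
    gcongr
  have h3 : π / 2 * (2 / π * (dist x y / 2)) = dist x y / 2 := by
    field_simp
  nlinarith

/-- The homeomorphism to the sphere with the chordal metric. -/
def rndHomeo (n : ℕ) : Rnd n ≃ₜ Sph n where
  toFun x := x.pt
  invFun x := ⟨x⟩
  left_inv _ := rfl
  right_inv _ := rfl
  continuous_toFun := by
    have : LipschitzWith 1 fun x : Rnd n => x.pt := LipschitzWith.of_dist_le_mul fun x y => by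
      rw [NNReal.coe_one, one_mul]
      exact chord_le x y
    exact this.continuous
  continuous_invFun := by
    have : LipschitzWith ⟨π / 2, by positivity⟩ fun x : Sph n => (⟨x⟩ : Rnd n) :=
      LipschitzWith.of_dist_le_mul fun x y => dist_le_chord _ _
    exact this.continuous

instance : CompactSpace (Rnd n) := (rndHomeo n).symm.compactSpace

/-- Lipschitz approximation of maps into the round sphere. -/
theorem exists_lip_rnd {M : Type} [MetricSpace M] [CompactSpace M] (h : C(M, Rnd n)) {ε : ℝ}
    (hε : 0 < ε) : ∃ (f : C(M, Rnd n)) (K : ℝ), 0 < K ∧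
      (∀ x y, dist (f x) (f y) ≤ K * dist x y) ∧ ∀ x, dist (f x) (h x) ≤ ε := by
  have hπ := pi_pos
  obtain ⟨g, K, hg, hc⟩ := H126L.exists_lip ((⟨rndHomeo n, (rndHomeo n).continuous⟩ :
    C(Rnd n, Sph n)).comp h) (ε := ε / π) (by positivity)
  refine ⟨(⟨(rndHomeo n).symm, (rndHomeo n).symm.continuous⟩ : C(Sph n, Rnd n)).comp g,
    π / 2 * (K + 1), by positivity, fun x y => ?_, fun x => ?_⟩
  · refine (dist_le_chord _ _).trans ?_
    change π / 2 * dist (g x) (g y) ≤ _
    have h1 := hg.dist_le_mul x y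
    have h2 : (0 : ℝ) ≤ dist x y := dist_nonneg
    have h3 : dist (g x) (g y) ≤ (K + 1) * dist x y := by linarith
    calc _ ≤ π / 2 * ((K + 1) * dist x y) := by gcongr
      _ = _ := by ring
  · refine (dist_le_chord _ _).trans ?_
    have h1 : dist (g x) (h x).pt ≤ ε / π := hc x
    change π / 2 * dist (g x) (h x).pt ≤ _
    calc _ ≤ π / 2 * (ε / π) := by gcongr
      _ = ε / 2 := by field_simp
      _ ≤ _ := by linarith

end Vale.Agent.P216.Q633
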