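import Vale.Agent.P216.Q633.ModAll
import Vale.Agent.P216.B609.PInstD

set_option linter.unusedSectionVars false

/-!
# P216-D: the end for manifolds whose global classes lift, and rational homology spheres by maps

* `GenL M q e B k` = `XGenD` without weights; `DZero` = the Gysin map of the tower `XL M t` kills
  the generators of parity `q`.
* `main_L`: the main theorem from `GenL` + `DZero`, for an unbounded set of primes.
* `main_D1`: the main theorem from `D1Goal` (a Lipschitz map `f : M → Rnd n` and the topology of the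
  free loop space of `M`, without signs).
-/

open Set Topology Bundle Manifold
open scoped ContDiff

noncomputable section

namespace Vale.Agent.P216.Q633

open AS B64 L250 GM B633 B609 H288 H494 DV706
open Vale.Agent.P216.B633 (Tower RegCof)

/-- The topology of the free loop space, one field, no signs, no weights. -/
structure GenL (M : Type) [MetricSpace M] (q : ℕ) (e : ℕ → ℕ) (B : ℝ) (k : Type) [Field k] where
  g : ∀ (n : ℕ) (t : ℝ), HU k (XL M t) n
  res_g : ∀ n s t (h : s ≤ t), hres k (XL_mono h) n (g n t) = g n s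
  span : ∀ n t, 0 ≤ t → ∀ (h : XL M t ⊆ XL M (t + B)) (z : HU k (XL M (t + B)) n),
    ∃ c : k, hres k h n z = c • g n t
  e_mono : StrictMono e
  e_par : ∀ i, e i % 2 = q
  e_ge : ∀ i, 3 ≤ e i
  /-- no class just below the degree `e i` -/
  gap : ∀ i t t', g (e i) t ≠ 0 → g (e i - 1) t' = 0
  birth0 : ∀ t, B ≤ t → g (e 0) t ≠ 0
  birth : ∀ i t, 0 ≤ t → g (e i) t ≠ 0 → g (e (i + 1)) (t + B) ≠ 0

namespace GenL

variable {M : Type} [MetricSpace M] {q : ℕ} {e : ℕ → ℕ} {B : ℝ} {k : Type} [Field k]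

theorem gen (X : GenL M q e B k) : Gen M B k X.g := ⟨X.res_g, X.span⟩

theorem iter_one_hpull (n : ℕ) (t : ℝ) {s : ℝ} (hs : s = t)
    (h : UMap (XL M t) (XL M s) (L250.iter 1 : LM M → LM M)) (g : ∀ s, HU k (XL M s) n) :
    hpull k h n (g s) = g t := by
  subst hs
  have h2 := pull_congr (χ := c0 k) (n := n) h
    (IsMap.id_of_subset (a := a0 (LM M)) (Subset.refl (XL M s))) fun w _ => L250.iter_one w
  refine (LinearMap.congr_fun h2 (g s)).trans ?_
  obtain ⟨c, hc, h3⟩ := H.exists_mk (g s)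
  rw [← h3]
  rfl

/-- `XGenD` for the trivial power map. -/
def toD (X : GenL M q e B k) : XGenD M q e B 1 k where
  g := X.g
  res_g := X.res_g
  span := X.span
  wt n t := by
    rw [iter_one_hpull n t (by rw [Nat.cast_one, one_mul]) (umap_iter 1 t) (X.g n), wtD,
      Nat.cast_one, inv_one, one_pow, one_smul]
  e_mono := X.e_mono
  e_par := X.e_par
  e_ge := X.e_ge
  gap := X.gap
  birth0 := X.birth0
  birth := X.birth

/-- The Gysin map of the tower `XL M t` kills the generators of parity `q`. -/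
def DZero [CompactSpace M] {p : ℕ} [hpp : Fact p.Prime] (h2 : 2 < p)
    (X : GenL M q e B (ZMod p)) : Prop :=
  ∀ n, (n + 1) % 2 = q → ∀ t, (gysN M (ZMod p) hpp.out.pos h2 t).d n (X.g (n + 1) t) = 0

end GenL

section

variable {M : Type} [MetricSpace M] [CompactSpace M] (G : GeoList M)
  (hD : DescentStmt (Hol.triv : Hol M) G)

/-- the lifts -/
theorem lift_of_dZero {p : ℕ} [hpp : Fact p.Prime] (h2 : 2 < p)
    (hfin : RotS.FinAt (S0 G hD) (ZMod p)) {a : ℕ → ℝ} (ha : RegCof (Crit G.ℓ) a) {q : ℕ}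
    {e : ℕ → ℕ} {B : ℝ} (hB : 0 < B) (X : GenL M q e B (ZMod p)) (hX : X.DZero h2) (n : ℕ)
    (hn : n % 2 = q) :
    Function.Surjective ((T0 G hD (ZMod p) hpp.out h2 hfin).πi n) := by
  let Φ := xiso G hD (ZMod p) hpp.out h2 hfin
  rcases n with _ | n
  · exact ((T0 G hD (ZMod p) hpp.out h2 hfin).Gi ha).surj0
  intro x
  apply (((T0 G hD (ZMod p) hpp.out h2 hfin).Gi ha).ex1 n x).1
  change (T0 G hD (ZMod p) hpp.out h2 hfin).di n x = 0
  obtain ⟨c, rfl⟩ := Φ.exists_smulD X.toD hB (n + 1) x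
  rw [map_smul]
  refine (congrArg _ ?_).trans (smul_zero c)
  refine ((T0 G hD (ZMod p) hpp.out h2 hfin).TF n).ext fun t => ?_
  change (T0 G hD (ZMod p) hpp.out h2 hfin).rF t n
    ((T0 G hD (ZMod p) hpp.out h2 hfin).di n (Φ.gd X.toD (n + 1))) =
      (T0 G hD (ZMod p) hpp.out h2 hfin).rF t n 0
  rw [TSys.rF_di, map_zero]
  refine d_sheet G hD (ZMod p) hpp.out h2 t n ?_
  have e1 : phi G hD (ZMod p) t (n + 1)
      ((T0 G hD (ZMod p) hpp.out h2 hfin).rH t (n + 1) (Φ.gd X.toD (n + 1))) = X.g (n + 1) t :=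
    Φ.φ_gd X.toD t (n + 1)
  rw [e1]
  exact hX n hn t

/-- **The instance** for an unbounded set of primes. -/
theorem psysL (hL : (S0 G hD).LevelBound) (h0 : (S0 G hD).BaseFin) {q : ℕ}
    {e : ℕ → ℕ} {B : ℝ} (hB : 0 < B) (hq : q < 2) (Q : ℕ → Prop)
    (hX : ∀ p : ℕ, ∀ _ : Fact p.Prime, ∀ h2 : 2 < p, Q p →
      ∃ X : GenL M q e B (ZMod p), X.DZero h2) :
    ∃ (K : ℕ) (B0 B1 : ℝ), ∀ p : ℕ, p.Prime → 2 < p → Q p → ∃ (k : Type) (_ : Field k),
      Nonempty (T695.PSysC k p (Crit G.ℓ) K B0 B1) := by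
  have hst : ∀ p : ℕ, ∀ _ : Fact p.Prime, 2 < p → Q p → ∀ s t : ℝ, 0 < s →
      ∀ (h : s ≤ s + B) (h' : s + B ≤ t) (n : ℕ),
        LinearMap.range ((S0 G hD).rV (ZMod p) h n) ≤
          LinearMap.range ((S0 G hD).rV (ZMod p) (h.trans h') n) := by
    intro p hpp h2 hQ s t hs h h' i
    obtain ⟨X, -⟩ := hX p hpp h2 hQ
    exact (xiso G hD (ZMod p) hpp.out h2 (finAt G hD hL h0 p h2)).stableD X.toD hB hs.le h
      (h.trans h') i
  obtain ⟨K, hK⟩ := (S0 G hD).bars_of_levelBoundQ hL hB.le Q hst h0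
  obtain ⟨a, ha⟩ := exists_regCof (exists_reg G hD)
  refine ⟨K, B, B, fun p hp h2 hQ => ⟨ZMod p, @ZMod.instField p ⟨hp⟩, ?_⟩⟩
  have hpp : Fact p.Prime := ⟨hp⟩
  obtain ⟨X, hX0⟩ := hX p hpp h2 hQ
  have hf := finAt G hD hL h0 p h2
  have Φ := xiso G hD (ZMod p) hp h2 hf
  refine ⟨(T0 G hD (ZMod p) hp h2 hf).toPSysC hp.pos ha
    (Φ.restD_of_lift X.toD ha (GSys.two_ne_zero' h2) hq hB (K := K) ?_ ?_ ?_ ?_ ?_)
    (Φ.birthsD X.toD hB)⟩
  · exact lift_of_dZero G hD h2 hf ha hB X hX0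
  · exact fun t ht htc => (hf t ht htc).2
  · exact fun t ht htc m T h hT => hK p hpp h2 hQ t ht htc T h hT m
  · exact fun s t h hs hc i => (S0 G hD).res_bijective hs h hc ((S0 G hD).mono s t h) i
  · exact fun s t h hs hsc htc h1 => rel G hD p h2 hf s t h hs hsc htc h1

end

/-- The topology of the free loop space, for the primes with `Q p`. -/
def LGoal (M : Type) [MetricSpace M] [CompactSpace M] (Q : ℕ → Prop) (q : ℕ) (e : ℕ → ℕ) : Prop :=
  ∀ ρ : ℝ, 0 < ρ → LS.UniqSeg M ρ → ∃ B : ℝ, 0 < B ∧ ∀ p : ℕ, ∀ _ : Fact p.Prime, ∀ h2 : 2 < p,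
    Q p → ∃ X : GenL M q e B (ZMod p), X.DZero h2

/-- **The main theorem from the topology with lifts.** -/
theorem main_L
    {E : Type} [NormedAddCommGroup E] [NormedSpace ℝ E] [FiniteDimensional ℝ E]
    {M : Type} [MetricSpace M] [CompactSpace M] [ChartedSpace E M] [IsManifold 𝓘(ℝ, E) ∞ M]
    [RiemannianBundle (fun x : M => TangentSpace 𝓘(ℝ, E) x)]
    [IsContMDiffRiemannianBundle 𝓘(ℝ, E) ∞ E (fun x : M => TangentSpace 𝓘(ℝ, E) x)]
    [IsRiemannianManifold 𝓘(ℝ, E) M] [PreconnectedSpace M] (Q : ℕ → Prop)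
    (hQ : ∀ N : ℕ, ∃ p, N < p ∧ p.Prime ∧ Q p) {q : ℕ} (hq : q < 2) {e : ℕ → ℕ}
    (hX : LGoal M Q q e) : (primeClosedGeodesicImages M).Infinite := by
  intro hfin
  obtain ⟨ρ, hρ, hs, _⟩ := Geo.exists_uniqSeg E M
  obtain ⟨G⟩ := exists_geoList (nonBranching_of_riemannian (E := E) (M := M)) hfin
  have hLOC : GM.LOC M := H319.loc (E := E) hρ hs (H844.f4_M E M)
  obtain ⟨B, hB, hX'⟩ := hX ρ hρ hs
  have hD := descentStmt (Hol.triv : Hol M) G hρ hs
  obtain ⟨K, B0, B1, h⟩ := psysL G hD (GM.levelBound (GM.f1 hρ hs) hLOC GM.tw Hol.triv G hD)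
    (baseFin_of_finM G hD (finM_of_chartedSpace E)) hB hq Q hX'
  have := G.fin
  exact tightEndQ G.ℓ G.ℓ_pos K B0 B1 Q hQ h

/-! ### Rational homology spheres, by maps -/

/-- degrees of the sphere -/
def XPre.toL {M : Type} [MetricSpace M] {n : ℕ} (hn : 4 ≤ n) {B : ℝ} {k : Type} [Field k]
    (X : XPre M n B k) : GenL M ((n - 1) % 2) (fun i => kk n i * (n - 1)) B k where
  g := X.g
  res_g := X.res_g
  span := X.span
  e_mono := B633.e_strictMono hn
  e_par := e_par hn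
  e_ge i := by
    have h1 := B633.kk_pos hn i
    have h2 : 1 * (n - 1) ≤ kk n i * (n - 1) := Nat.mul_le_mul_right _ h1
    change 3 ≤ kk n i * (n - 1)
    omega
  gap i t t' h := by
    have h1 := B633.kk_pos hn i
    have h2 : 1 * (n - 1) ≤ kk n i * (n - 1) := Nat.mul_le_mul_right _ h1
    have h3 := e_par hn i
    refine X.g_zero _ _ (gap_deg hn (by omega) (by omega) ?_)
    rw [show kk n i * (n - 1) - 1 + 1 = kk n i * (n - 1) by omega]
    exact Or.inr ⟨i, Or.inl rfl⟩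
  birth0 := X.birth0
  birth := X.birth

/-- **The topological input for `M` of dimension `n ≥ 4`**: a Lipschitz map `f` to the round sphere
and, for the primes `p` with `Q p`, generators of the stable cohomology of the free loops of `M`
(no signs), such that for every `i` some class of degree `kk n i * (n - 1)` of the free loops of the
sphere does not die on the free loops of `M`. -/
def D1Goal (M : Type) [MetricSpace M] (n : ℕ) (Q : ℕ → Prop) : Prop :=
  ∀ ρ : ℝ, 0 < ρ → LS.UniqSeg M ρ → ∃ (f : C(M, Rnd n)) (K : ℝ) (hK : 0 ≤ K)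
    (hf : ∀ x y, dist (f x) (f y) ≤ K * dist x y) (B : ℝ), 0 < B ∧
    ∀ p : ℕ, ∀ _ : Fact p.Prime, 2 < p → Q p → Nonempty (XPre M n B (ZMod p)) ∧
      ∀ i, ∃ (t s : ℝ) (h : K * t ≤ s) (z : (THU (Rnd n) (ZMod p) (kk n i * (n - 1))).Lim),
        hpull (ZMod p) (umap_lf hK hf h) _ ((THU (Rnd n) (ZMod p) _).ev s z) ≠ 0

theorem lGoal_of_D1Goal {M : Type} [MetricSpace M] [CompactSpace M] {n : ℕ} (hn : 4 ≤ n)
    {Q : ℕ → Prop} (h : D1Goal M n Q) : LGoal M Q ((n - 1) % 2) fun i => kk n i * (n - 1) := by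
  intro ρ hρ hU
  obtain ⟨f, K, hK, hf, B, hB, hX⟩ := h ρ hρ hU
  refine ⟨B, hB, fun p hpp h2 hQ => ?_⟩
  obtain ⟨⟨X⟩, hne⟩ := hX p hpp h2 hQ
  refine ⟨X.toL hn, fun q hq t => ?_⟩
  change (gysN M (ZMod p) hpp.out.pos h2 t).d q (X.g (q + 1) t) = 0
  by_cases hDg : Deg n (q + 1)
  · obtain ⟨i, hi⟩ := deg_x hn hDg hq (by omega)
    have hne' := hne i
    rw [← hi] at hne'
    obtain ⟨t₁, s₁, h₁, z, hz⟩ := hne'
    obtain ⟨c, hc⟩ := X.gen.exists_smul hB.le (q + 1) (pullL hK hf (q + 1) z)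
    have hc0 : c ≠ 0 := by
      rintro rfl
      apply hz
      rw [← ev_pullL hK hf (q + 1) z h₁, hc, zero_smul, map_zero]
    have h3 := d_lf hK hf (ZMod p) hpp.out.pos h2 (le_refl (K * t)) q
      (d_rnd hn h2 hq z (K * t))
    rw [← ev_pullL hK hf (q + 1) z le_rfl, hc, map_smul, map_smul] at h3
    exact (smul_eq_zero.1 h3).resolve_left hc0
  · rw [X.g_zero _ _ hDg, map_zero]

/-- **The main theorem for rational homology spheres, from `D1Goal`.** -/
theorem main_D1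
    {E : Type} [NormedAddCommGroup E] [NormedSpace ℝ E] [FiniteDimensional ℝ E]
    {M : Type} [MetricSpace M] [CompactSpace M] [ChartedSpace E M] [IsManifold 𝓘(ℝ, E) ∞ M]
    [RiemannianBundle (fun x : M => TangentSpace 𝓘(ℝ, E) x)]
    [IsContMDiffRiemannianBundle 𝓘(ℝ, E) ∞ E (fun x : M => TangentSpace 𝓘(ℝ, E) x)]
    [IsRiemannianManifold 𝓘(ℝ, E) M] [PreconnectedSpace M] {n : ℕ} (hn : 4 ≤ n) (Q : ℕ → Prop)
    (hQ : ∀ N : ℕ, ∃ p, N < p ∧ p.Prime ∧ Q p) (hX : D1Goal M n Q) :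
    (primeClosedGeodesicImages M).Infinite :=
  main_L (E := E) Q hQ (Nat.mod_lt _ two_pos) (lGoal_of_D1Goal hn hX)

end Vale.Agent.P216.Q633
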