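import Mathlib.Analysis.Quaternion
import Vale.Agent.P216.L250.Loop
import Vale.Agent.P216.B64.Contract

/-!
# P216, three dimensional sphere: the based loops of the unit quaternions

`S3` = unit quaternions, `EY` = based loops of period one, `ry a w = w(a)⁻¹ w(· + a)` the circle
action, `rv` reversal, `Y s` = energy sublevels, `qm f : LM M → EY`, `g ↦ (f g(0))⁻¹ (f ∘ g)`,
strictly equivariant for the circle, the reversal and the inclusions; `qm f` maps `XL M s` to
`Y (K s)` when `f` is `K`-Lipschitz.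
-/

open Set Topology Quaternion

noncomputable section

namespace Vale.Agent.P216.Q633

open L250 GM

/-- The unit quaternions. -/
abbrev S3 : Type := Metric.sphere (0 : ℍ[ℝ]) 1

theorem norm_S3 (x : S3) : ‖(x : ℍ[ℝ])‖ = 1 := by simp

theorem dist_mul_left (a x y : S3) : dist (a * x) (a * y) = dist x y := by
  rw [Subtype.dist_eq, Subtype.dist_eq, dist_eq_norm, dist_eq_norm, Metric.unitSphere.coe_mul,
    Metric.unitSphere.coe_mul, ← mul_sub, norm_mul, norm_S3, one_mul]

theorem dist_mul_right (a x y : S3) : dist (x * a) (y * a) = dist x y := by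
  rw [Subtype.dist_eq, Subtype.dist_eq, dist_eq_norm, dist_eq_norm, Metric.unitSphere.coe_mul,
    Metric.unitSphere.coe_mul, ← sub_mul, norm_mul, norm_S3, mul_one]

theorem dist_inv_inv (x y : S3) : dist x⁻¹ y⁻¹ = dist x y := by
  rw [← dist_mul_left x, ← dist_mul_right y, mul_inv_cancel, one_mul, mul_assoc, inv_mul_cancel,
    mul_one, dist_comm]

theorem dist_mul_mul_le (a b x y : S3) : dist (a * x) (b * y) ≤ dist a b + dist x y := by
  refine (dist_triangle _ (b * x) _).trans_eq ?_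
  rw [dist_mul_right, dist_mul_left]

theorem dist_div_le (a b x y : S3) : dist (a⁻¹ * x) (b⁻¹ * y) ≤ dist a b + dist x y :=
  (dist_mul_mul_le _ _ _ _).trans_eq (by rw [dist_inv_inv])

instance : CompactSpace S3 := isCompact_iff_compactSpace.1 (isCompact_sphere _ _)

/-! ### Left translation of loops -/

/-- left translation -/
def lm (x : S3) (w : LM S3) : LM S3 := ⟨fun t => x * w t, by fun_prop⟩

@[simp] theorem fn_lm (x : S3) (w : LM S3) (t : ℝ) : fn (lm x w) t = x * fn w t := rfl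

/-- Energy under Lipschitz maps. -/
theorem HasE.lip {M N : Type} [MetricSpace M] [MetricSpace N] {f : M → N} {K : ℝ}
    (hf : ∀ x y, dist (f x) (f y) ≤ K * dist x y) {g : ℝ → M} {C : ℝ} (h : HasE g C) :
    HasE (fun t => f (g t)) (K ^ 2 * C) := by
  obtain ⟨e, h1, h2⟩ := h
  refine ⟨fun t => K ^ 2 * e t, fun s t hst => ?_, fun t => ?_⟩
  · have h3 := pow_le_pow_left₀ dist_nonneg (hf (g s) (g t)) 2
    have h4 := mul_le_mul_of_nonneg_left (h1 s t hst) (sq_nonneg K)
    calc _ ≤ _ := h3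
      _ = K ^ 2 * dist (g s) (g t) ^ 2 := by ring
      _ ≤ _ := h4
      _ = _ := by ring
  · change K ^ 2 * e (t + 1) = _
    rw [h2]
    ring

theorem lm_mem {x : S3} {w : LM S3} {s : ℝ} (h : w ∈ XE S3 s) : lm x w ∈ XE S3 s := by
  have := HasE.lip (f := fun y => x * y) (K := 1) (fun y z => by
    rw [dist_mul_left, one_mul]) h
  rw [one_pow, one_mul] at this
  exact this

/-! ### Based loops -/

/-- Based loops of the unit quaternions. -/
abbrev EY : Type := {w : LM S3 // fn w 0 = 1}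

theorem dist_EY (w w' : EY) : dist w w' = dist w.1 w'.1 := rfl

theorem ext_EY {w w' : EY} (h : ∀ t, fn w.1 t = fn w'.1 t) : w = w' := Subtype.ext (ext_fn h)

/-- Normalisation: left translation to the base point. -/
def nm (w : LM S3) : EY := ⟨lm (fn w 0)⁻¹ w, by rw [fn_lm, inv_mul_cancel]⟩

@[simp] theorem fn_nm (w : LM S3) (t : ℝ) : fn (nm w).1 t = (fn w 0)⁻¹ * fn w t := rfl

theorem nm_self (w : EY) : nm w.1 = w := ext_EY fun t => by rw [fn_nm, w.2, inv_one, one_mul]

theorem dist_nm_le (w w' : LM S3) : dist (nm w) (nm w') ≤ 2 * dist w w' := by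
  rw [dist_EY, dist_le_iff (by positivity)]
  intro t
  rw [fn_nm, fn_nm]
  refine (dist_div_le _ _ _ _).trans ?_
  linarith [dist_fn_le w w' 0, dist_fn_le w w' t]

/-- The circle action. -/
def ry (a : ℝ) (w : EY) : EY := nm (rot a w.1)

theorem fn_ry (a : ℝ) (w : EY) (t : ℝ) : fn (ry a w).1 t = (fn w.1 a)⁻¹ * fn w.1 (t + a) := by
  rw [ry, fn_nm, fn_rot, fn_rot, zero_add]

@[simp] theorem ry_zero (w : EY) : ry 0 w = w := ext_EY fun t => by
  rw [fn_ry, w.2, inv_one, one_mul, add_zero]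

theorem ry_ry (a b : ℝ) (w : EY) : ry a (ry b w) = ry (a + b) w := ext_EY fun t => by
  rw [fn_ry, fn_ry, fn_ry, fn_ry, mul_inv_rev, inv_inv, mul_assoc, mul_inv_cancel_left, add_assoc]

@[simp] theorem ry_one (w : EY) : ry 1 w = w := ext_EY fun t => by
  have h := fn_periodic w.1 0
  rw [zero_add] at h
  rw [fn_ry, fn_periodic w.1 t, h, w.2, inv_one, one_mul]

theorem ry_int (n : ℤ) (w : EY) : ry n w = w := by
  have h1 : ∀ n : ℕ, ∀ w, ry n w = w := by
    intro n
    induction n with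
    | zero => intro w; simp
    | succ n ih => intro w; rw [Nat.cast_succ, ← ry_ry, ry_one, ih]
  obtain ⟨n, rfl | rfl⟩ := n.eq_nat_or_neg
  · exact_mod_cast h1 n w
  · have h2 := h1 n (ry ((-(n : ℤ) : ℤ) : ℝ) w)
    rw [ry_ry] at h2
    push_cast at h2 ⊢
    rwa [add_neg_cancel, ry_zero, eq_comm] at h2

/-- Reversal. -/
def rv (w : EY) : EY := ⟨rev w.1, by rw [fn_rev, neg_zero, w.2]⟩

@[simp] theorem fn_rv (w : EY) (t : ℝ) : fn (rv w).1 t = fn w.1 (-t) := fn_rev _ _

@[simp] theorem rv_rv (w : EY) : rv (rv w) = w := Subtype.ext (rev_rev _)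

theorem rv_ry (a : ℝ) (w : EY) : rv (ry a w) = ry (-a) (rv w) := ext_EY fun t => by
  rw [fn_rv, fn_ry, fn_ry, fn_rv, fn_rv, neg_neg, neg_add, neg_neg]

theorem isometry_rv : Isometry rv := Isometry.of_dist_eq fun w w' => isometry_rev.dist_eq w.1 w'.1

theorem dist_ry_le (a : ℝ) (w w' : EY) : dist (ry a w) (ry a w') ≤ 2 * dist w w' := by
  refine (dist_nm_le _ _).trans_eq ?_
  rw [(isometry_rot a).dist_eq]
  rfl

/-- Energy sublevels. -/
def Y (s : ℝ) : Set EY := {w | w.1 ∈ XL S3 s}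

theorem Y_mono : Monotone Y := fun _ _ h _ hw => XL_mono h hw

theorem nm_mem {w : LM S3} {s : ℝ} (h : w ∈ XL S3 s) : nm w ∈ Y s := lm_mem (s := max s 0) h

theorem ry_mem {w : EY} {s : ℝ} (h : w ∈ Y s) (a : ℝ) : ry a w ∈ Y s :=
  nm_mem (rot_mem (s := max s 0) h a)

theorem ry_mem_iff {w : EY} {s : ℝ} {a : ℝ} : ry a w ∈ Y s ↔ w ∈ Y s := by
  refine ⟨fun h => ?_, fun h => ry_mem h a⟩
  have := ry_mem h (-a)
  rwa [ry_ry, neg_add_cancel, ry_zero] at this

theorem rv_mem {w : EY} {s : ℝ} (h : w ∈ Y s) : rv w ∈ Y s := rev_mem (s := max s 0) h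

theorem isCompact_Y (s : ℝ) : IsCompact (Y s) := by
  have h1 : IsCompact (XL S3 s) := isCompact_XE (le_max_right _ _)
  have h2 : IsClosed {w : LM S3 | fn w 0 = 1} :=
    isClosed_eq (ContinuousEvalConst.continuous_eval_const _) continuous_const
  rw [Topology.IsEmbedding.subtypeVal.isCompact_iff]
  have h3 : Subtype.val '' (Y s) = XL S3 s ∩ {w : LM S3 | fn w 0 = 1} := by
    ext w
    constructor
    · rintro ⟨w, hw, rfl⟩
      exact ⟨hw, w.2⟩
    · rintro ⟨h1, h2⟩
      exact ⟨⟨w, h2⟩, h1, rfl⟩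
  rw [h3]
  exact h1.inter_right h2

/-- The circle action is uniformly continuous. -/
theorem dist_ry_ry_le {s : ℝ} {w : EY} (hw : w ∈ Y s) (a b : ℝ) :
    dist (ry a w) (ry b w) ≤ 2 * (max s 0 * Real.sqrt |a - b|) :=
  (dist_nm_le _ _).trans (mul_le_mul_of_nonneg_left (dist_rot_le (le_max_right _ _) hw a b)
    zero_le_two)

/-! ### The map from the free loop space -/

section Map

variable {M : Type} [MetricSpace M] (f : C(M, S3))

/-- The map `g ↦ (f g(0))⁻¹ (f ∘ g)`. -/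
def qm (g : LM M) : EY := nm (f.comp g)

theorem fn_qm (g : LM M) (t : ℝ) : fn (qm f g).1 t = (f (fn g 0))⁻¹ * f (fn g t) := rfl

/-- `qm f` is equivariant for the circle. -/
theorem qm_rot (a : ℝ) (g : LM M) : qm f (rot a g) = ry a (qm f g) := ext_EY fun t => by
  rw [fn_qm, fn_ry, fn_qm, fn_qm, fn_rot, fn_rot, zero_add, mul_inv_rev, inv_inv, mul_assoc,
    mul_inv_cancel_left]

/-- `qm f` commutes with the reversal. -/
theorem qm_rev (g : LM M) : qm f (rev g) = rv (qm f g) := ext_EY fun t => by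
  rw [fn_qm, fn_rv, fn_qm, fn_rev, fn_rev, neg_zero]

variable {f} {K : ℝ} (hK : 0 ≤ K) (hf : ∀ x y, dist (f x) (f y) ≤ K * dist x y)

include hK hf

theorem dist_qm_le (g g' : LM M) : dist (qm f g) (qm f g') ≤ 2 * K * dist g g' := by
  refine (dist_nm_le _ _).trans ?_
  rw [mul_assoc]
  refine mul_le_mul_of_nonneg_left ?_ zero_le_two
  rw [dist_le_iff (by positivity)]
  intro t
  exact (hf _ _).trans (mul_le_mul_of_nonneg_left (dist_fn_le g g' t) hK)

theorem comp_mem {g : LM M} {s : ℝ} (h : g ∈ XL M s) : f.comp g ∈ XL S3 (K * s) := by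
  have h1 := HasE.lip hf (show HasE (fn g) (max s 0 ^ 2) from h)
  have h2 : max (K * s) 0 = K * max s 0 := by
    rw [mul_max_of_nonneg _ _ hK, mul_zero]
  change HasE (fn (f.comp g)) (max (K * s) 0 ^ 2)
  rw [h2, mul_pow]
  exact h1

theorem qm_mem {g : LM M} {s : ℝ} (h : g ∈ XL M s) : qm f g ∈ Y (K * s) :=
  nm_mem (comp_mem hK hf h)

theorem umap_qm (s : ℝ) : B64.UMap (XL M s) (Y (K * s)) (qm f) :=
  ⟨fun _ hg => qm_mem hK hf hg, fun e => e.elim, fun ε hε =>
    ⟨ε / (2 * K + 1), by positivity, fun g _ g' _ h => by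
      refine (dist_qm_le hK hf g g').trans_lt ?_
      have h1 : 0 < 2 * K + 1 := by positivity
      rw [lt_div_iff₀ h1] at h
      nlinarith [dist_nonneg (x := g) (y := g')]⟩⟩

end Map

theorem umap_rv (s : ℝ) : B64.UMap (Y s) (Y s) rv :=
  ⟨fun _ hw => rv_mem hw, fun e => e.elim, fun ε hε =>
    ⟨ε, hε, fun w _ w' _ h => by rwa [isometry_rv.dist_eq]⟩⟩

theorem umap_ry (s a : ℝ) : B64.UMap (Y s) (Y s) (ry a) :=
  ⟨fun _ hw => ry_mem hw a, fun e => e.elim, fun ε hε =>
    ⟨ε / 2, by positivity, fun w _ w' _ h => (dist_ry_le a w w').trans_lt (by linarith)⟩⟩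

end Vale.Agent.P216.Q633
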