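import Vale.Agent.P216.Q633.LiftG
import Vale.Agent.P216.H269.KOfG

/-!
# P216, Theorem C, block [LIFT-F]: the structure `Gom` from (G1), (G2) and `XOut2`
-/

open Set Topology

namespace Vale.Agent.P216.Q633

open AS B64 L250 GM H828C H269 H288 H494 S4

variable {M : Type} [MetricSpace M] [CompactSpace M] {f : C(M, S3)} {K : ℝ} (hK : 0 < K)
  (hf : ∀ x y, dist (f x) (f y) ≤ K * dist x y) {k : Type} [Field k]

theorem gom_of {B B' : ℝ} (hB : 0 ≤ B) {x₀ : M} {O : OmegaOut M 2 x₀ B' k} (G1 : G1P k)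
    (G2 : G2P hK.le hf O) (X : XOut2 M B k) : Gom hK.le hf k X.g where
  G1 := g1r G1
  G2 n hn t s := by
    obtain ⟨s', h1, h2, c, hc⟩ := g2r hK hf hB G2 X n hn t s
    exact ⟨s', h1, h2, c, hc _⟩

/-- **The Gysin map kills the global classes of even degree** (frame of the `GSys` of `M`). -/
theorem d_ev_eq_zero_of (G : GeoList M) (hD : DescentStmt (Hol.triv : Hol M) G)
    (h2 : (2 : k) = 0) (R : RotS (mkGSys Hol.triv G hD)) {B B' : ℝ} (hB : 0 < B) {x₀ : M}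
    {O : OmegaOut M 2 x₀ B' k} (G1 : G1P k) (G2 : G2P hK.le hf O) (X : XOut2 M B k) {n : ℕ}
    (hn : n % 2 = 1) (x : (RotS.TH (mkGSys Hol.triv G hD) k (n + 1)).Lim) (t : ℝ) :
    (R.gysM k (ord_four h2) t).d n ((RotS.TH (mkGSys Hol.triv G hD) k (n + 1)).ev t x) = 0 :=
  d_ev_eq_zero G hD h2 hK.le hf R hB X (gom_of hK hf hB.le G1 G2 X) hn x t

end Vale.Agent.P216.Q633
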