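import Vale.Agent.P216.Q633.LiftY
import Vale.Agent.P216.H828C.Out2
import Vale.Agent.P216.DV706.PInst

set_option linter.unusedSectionVars false

/-!
# P216, Theorem C, block [LIFT-F]: all even classes lift

`Gom` = the output of the topology of the based loops of the unit quaternions (real-indexed form of
G1, G2); `d_ev_eq_zero`: the Gysin map `d` kills the global classes of even degree;
`lift_of_gom`: the field `lift` of `T2Sys`, for every `TSys2` whose groups are those of the `GSys`.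
-/

open Set Topology

noncomputable section

namespace Vale.Agent.P216.Q633

open AS DV Circ.PSt S4 DV965 B64 L250 GM H288 H494 H828C
open Vale.Agent.P216.B633 (Tower RegCof)

section

variable {M : Type} [MetricSpace M] {f : C(M, S3)} {K : ℝ} (hK : 0 ≤ K)
  (hf : ∀ x y, dist (f x) (f y) ≤ K * dist x y)

include hK hf

theorem umap_qm' {s t : ℝ} (h : K * t ≤ s) : UMap (XL M t) (Y s) (qm f) where
  mapsX _ hg := Y_mono h (qm_mem hK hf hg)
  eqv i := i.elim
  uc := (umap_qm hK hf t).uc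

/-- The output of the topology of the based loops, for one field. -/
structure Gom (k : Type) [Field k] (g : ∀ (q : ℕ) (t : ℝ), HU k (XL M t) q) : Prop where
  G1 : ∀ n, n % 2 = 1 → ∀ s : ℝ, ∃ s' : ℝ, ∃ h : s ≤ s', ∀ z : HU k (Y s') n,
    hres k (Y_mono h) n z = 0
  G2 : ∀ n, n % 2 = 0 → ∀ t s : ℝ, ∃ s' : ℝ, s ≤ s' ∧ ∃ h : K * t ≤ s', ∃ c : HU k (Y s') n,
    hpull k (umap_qm' hK hf h) n c = g n t

end

section

variable {M : Type} [MetricSpace M] [CompactSpace M] (G : GeoList M)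
  (hD : DescentStmt (Hol.triv : Hol M) G) (k : Type) [Field k] (h2 : (2 : k) = 0)
  (f : C(M, S3))

/-- the map on the trivial double cover -/
def Qf (x : LM M × ℂ) : EY := qm f x.1

theorem Qf_τ (x : LM M × ℂ) : Qf f ((mkGSys Hol.triv G hD).τ x) = Qf f x := rfl

theorem Qf_rot (x : LM M × ℂ) : Qf f ((mkGSys Hol.triv G hD).rot 4 x) =
    ry (1 / (4 : ℕ) : ℝ) (Qf f x) := qm_rot f _ _

variable {f} {K : ℝ} (hK : 0 ≤ K) (hf : ∀ x y, dist (f x) (f y) ≤ K * dist x y)

include hK hf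

theorem Qf_maps {t s : ℝ} (h : K * t ≤ s) : MapsTo (Qf f) ((mkGSys Hol.triv G hD).X t) (Y s) :=
  fun x hx => Y_mono h (qm_mem hK hf (show x.1 ∈ XL M t from hx.1))

theorem Qf_uc (t : ℝ) : ∀ ε > 0, ∃ δ > 0, ∀ x ∈ (mkGSys Hol.triv G hD).X t,
    ∀ y ∈ (mkGSys Hol.triv G hD).X t, dist x y < δ → dist (Qf f x) (Qf f y) < ε := by
  intro ε hε
  obtain ⟨δ, hδ, h⟩ := (umap_qm hK hf t).uc ε hε
  exact ⟨δ, hδ, fun x hx y hy hxy => h _ hx.1 _ hy.1
    (((le_max_left _ _).trans (Prod.dist_eq (x := x) (y := y)).ge).trans_lt hxy)⟩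

/-- the sheet isomorphism turns the pull back under `Qf f` into the pull back under `qm f` -/
theorem phi_Qf {t s : ℝ} (h : K * t ≤ s) (n : ℕ) (y : HU k (Y s) n) :
    B609.phi G hD k t n ((isGMorQ k h2 (Qf f) (Qf_τ G hD f) (Qf_rot G hD f)
      (Qf_maps G hD hK hf h) (Qf_uc G hD hK hf t)).mapH n y) = hpull k (umap_qm' hK hf h) n y := by
  obtain ⟨c, hc, rfl⟩ := H.exists_mk y
  rfl

variable {k}

/-- **`d` kills the classes of even degree coming from `Y`.** -/
theorem d_phi_symm_eq_zero (R : RotS (mkGSys Hol.triv G hD))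
    {g : ∀ (q : ℕ) (t : ℝ), HU k (XL M t) q} (hG : Gom hK hf k g) {n : ℕ} (hn : n % 2 = 1)
    (t : ℝ) : (R.gysM k (ord_four h2) t).d n ((B609.phi G hD k t (n + 1)).symm (g (n + 1) t)) =
      0 := by
  obtain ⟨s₁, hs₁, e1⟩ := d_pull_eq_zero R k h2 (Qf f) (Qf_τ G hD f) (Qf_rot G hD f)
    (Qf_maps G hD hK hf (t := t) le_rfl) (Qf_uc G hD hK hf t) hG.G1 hn
  obtain ⟨s', hs', h', c, hc⟩ := hG.G2 (n + 1) (by omega) t s₁
  have e2 := e1 (hres k (Y_mono hs') (n + 1) c)
  refine Eq.trans (congrArg _ ?_) e2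
  apply (B609.phi G hD k t (n + 1)).injective
  refine ((B609.phi G hD k t (n + 1)).apply_symm_apply _).trans ?_
  refine Eq.trans ?_ (phi_Qf G hD k h2 hK hf le_rfl (n + 1) _).symm
  rw [← hc]
  obtain ⟨c, hc', rfl⟩ := H.exists_mk c
  rfl

/-- **The Gysin map kills the global classes of even degree.** -/
theorem d_ev_eq_zero (R : RotS (mkGSys Hol.triv G hD)) {B : ℝ} (hB : 0 < B) (X : XOut2 M B k)
    (hG : Gom hK hf k X.g) {n : ℕ} (hn : n % 2 = 1)
    (x : (RotS.TH (mkGSys Hol.triv G hD) k (n + 1)).Lim) (t : ℝ) :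
    (R.gysM k (ord_four h2) t).d n ((RotS.TH (mkGSys Hol.triv G hD) k (n + 1)).ev t x) = 0 := by
  let Φ : HIso M (RotS.TH (mkGSys Hol.triv G hD) k)
      (fun t n => AS.GCx.Pair.rH ((mkGSys Hol.triv G hD).P_rstable k 4 (ord_four h2).pos t) n) :=
    { φ := fun t q => B609.phi G hD k t q
      nat := fun q s t h x => B609.phi_res G hD h q x
      rev := fun t q x => B609.phi_rH G hD (ord_four h2).pos t q x }
  obtain ⟨c, rfl⟩ := Φ.exists_smul X hB (n + 1) x
  rw [map_smul, map_smul]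
  have h3 : (RotS.TH (mkGSys Hol.triv G hD) k (n + 1)).ev t (Φ.gh X (n + 1)) =
      (B609.phi G hD k t (n + 1)).symm (X.g (n + 1) t) := rfl
  rw [h3, d_phi_symm_eq_zero G hD h2 hK hf R hG hn, smul_zero]

end

end Vale.Agent.P216.Q633
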