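import Vale.Agent.P216.Q633.TowN

set_option linter.unusedSectionVars false

/-!
# P216-D: families of generators of the stable cohomology of the free loops

`Gen M B k g`: the classes `g q t` are compatible and span, up to the shift `B`.  Then every
compatible family is a multiple of `g q`.  Maps `M → N` (Lipschitz) act on compatible families
strictly.
-/

open Set Topology

noncomputable section

namespace Vale.Agent.P216.Q633

open AS B64 L250 GM
open Vale.Agent.P216.B633 (Tower)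

/-- compatible generators -/
structure Gen (M : Type) [MetricSpace M] (B : ℝ) (k : Type) [Field k]
    (g : ∀ (q : ℕ) (t : ℝ), HU k (XL M t) q) : Prop where
  res_g : ∀ q s t (h : s ≤ t), hres k (XL_mono h) q (g q t) = g q s
  span : ∀ q t, 0 ≤ t → ∀ (h : XL M t ⊆ XL M (t + B)) (z : HU k (XL M (t + B)) q),
    ∃ c : k, hres k h q z = c • g q t

theorem gen_of {M : Type} [MetricSpace M] {n : ℕ} {B : ℝ} {k : Type} [Field k]
    (X : XOut M n B k) : Gen M B k X.g := ⟨X.res_g, X.span⟩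

namespace Gen

variable {M : Type} [MetricSpace M] {B : ℝ} {k : Type} [Field k]
  {g : ∀ (q : ℕ) (t : ℝ), HU k (XL M t) q} (X : Gen M B k g)

/-- the family as a global class -/
def gh (q : ℕ) : (THU M k q).Lim := ⟨fun t => g q t, fun s t h => X.res_g q s t h⟩

@[simp] theorem ev_gh (q : ℕ) (t : ℝ) : (THU M k q).ev t (X.gh q) = g q t := rfl

/-- **every compatible family is a multiple of the generator** -/
theorem exists_smul (hB : 0 ≤ B) (q : ℕ) (x : (THU M k q).Lim) : ∃ c : k, x = c • X.gh q := by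
  have h1 : ∀ t, 0 ≤ t → ∃ c : k, (THU M k q).ev t x = c • g q t := by
    intro t ht
    obtain ⟨c, hc⟩ := X.span q t ht (XL_mono (by linarith)) ((THU M k q).ev (t + B) x)
    refine ⟨c, ?_⟩
    rw [← hc]
    exact ((THU M k q).ρ_ev t (t + B) (by linarith) x).symm
  by_cases hz : ∀ t, 0 ≤ t → g q t = 0
  · refine ⟨0, (THU M k q).ext fun t => ?_⟩
    obtain ⟨c, hc⟩ := h1 (max t 0) (le_max_right _ _)
    rw [hz _ (le_max_right _ _), smul_zero] at hc
    rw [zero_smul, map_zero, ← (THU M k q).ρ_ev t (max t 0) (le_max_left _ _) x, hc, map_zero]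
  · push Not at hz
    obtain ⟨t₀, ht₀, hne⟩ := hz
    obtain ⟨c, hc⟩ := h1 t₀ ht₀
    refine ⟨c, (THU M k q).ext fun t => ?_⟩
    obtain ⟨c', hc'⟩ := h1 (max t t₀) (ht₀.trans (le_max_right _ _))
    have h2 : c' • g q t₀ = c • g q t₀ := by
      rw [← hc, ← (THU M k q).ρ_ev t₀ (max t t₀) (le_max_right _ _) x, hc', map_smul]
      congr 1
      exact (X.res_g q _ _ (le_max_right t t₀)).symm
    have h3 : c' = c := smul_left_injective k hne h2
    rw [map_smul, ← (THU M k q).ρ_ev t (max t t₀) (le_max_left _ _) x, hc', h3, map_smul]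
    congr 1
    exact X.res_g q _ _ (le_max_left t t₀)

include X in
theorem mem_range (hB : 0 ≤ B) {t : ℝ} (ht : 0 ≤ t) (q : ℕ) (z : HU k (XL M (t + B)) q) :
    (THU M k q).ρ t (t + B) (by linarith) z ∈ LinearMap.range ((THU M k q).ev t) := by
  obtain ⟨c, hc⟩ := X.span q t ht (XL_mono (by linarith)) z
  exact ⟨c • X.gh q, by rw [map_smul, ev_gh, ← hc]; rfl⟩

end Gen

/-! ### Lipschitz maps -/

section Lip

variable {M N : Type} [MetricSpace M] [MetricSpace N]

/-- composition with `f` -/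
def lf (f : C(M, N)) (w : LM M) : LM N := f.comp w

@[simp] theorem fn_lf (f : C(M, N)) (w : LM M) (t : ℝ) : fn (lf f w) t = f (fn w t) := rfl

theorem lf_rot (f : C(M, N)) (a : ℝ) (w : LM M) : lf f (rot a w) = rot a (lf f w) :=
  ext_fn fun t => by rw [fn_lf, fn_rot, fn_rot, fn_lf]

theorem lf_rev (f : C(M, N)) (w : LM M) : lf f (L250.rev w) = L250.rev (lf f w) :=
  ext_fn fun t => by rw [fn_lf, fn_rev, fn_rev, fn_lf]

variable {f : C(M, N)} {K : ℝ} (hK : 0 ≤ K) (hf : ∀ x y, dist (f x) (f y) ≤ K * dist x y)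

include hK hf

theorem dist_lf_le (w w' : LM M) : dist (lf f w) (lf f w') ≤ K * dist w w' := by
  rw [dist_le_iff (by positivity)]
  intro t
  exact (hf _ _).trans (mul_le_mul_of_nonneg_left (dist_fn_le w w' t) hK)

theorem HasE.lip' {g : ℝ → M} {C : ℝ} (h : HasE g C) : HasE (fun t => f (g t)) (K ^ 2 * C) := by
  obtain ⟨e, h1, h2⟩ := h
  refine ⟨fun t => K ^ 2 * e t, fun s t hst => ?_, fun t => ?_⟩
  · have h3 := pow_le_pow_left₀ dist_nonneg (hf (g s) (g t)) 2
    have h4 := mul_le_mul_of_nonneg_left (h1 s t hst) (sq_nonneg K)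
    calc _ ≤ _ := h3
      _ = K ^ 2 * dist (g s) (g t) ^ 2 := by ring
      _ ≤ _ := h4
      _ = _ := by ring
  · change K ^ 2 * e (t + 1) = _
    rw [h2]
    ring

theorem lf_mem {w : LM M} {s t : ℝ} (hst : K * t ≤ s) (h : w ∈ XL M t) : lf f w ∈ XL N s := by
  refine XL_mono hst ?_
  have h1 := HasE.lip' hK hf (show HasE (fn w) (max t 0 ^ 2) from h)
  have h2 : max (K * t) 0 = K * max t 0 := by
    rw [mul_max_of_nonneg _ _ hK, mul_zero]
  change HasE (fn (lf f w)) (max (K * t) 0 ^ 2)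
  rw [h2, mul_pow]
  exact h1

theorem umap_lf {s t : ℝ} (h : K * t ≤ s) : UMap (XL M t) (XL N s) (lf f) where
  mapsX _ hg := lf_mem hK hf h hg
  eqv i := i.elim
  uc ε hε := ⟨ε / (K + 1), by positivity, fun w _ w' _ hw => by
    refine (dist_lf_le hK hf w w').trans_lt ?_
    have h1 : 0 < K + 1 := by positivity
    rw [lt_div_iff₀ h1] at hw
    nlinarith [dist_nonneg (x := w) (y := w')]⟩

variable {k : Type} [Field k]

theorem pull_res {s s' t t' : ℝ} (h : K * t ≤ s) (h' : K * t' ≤ s') (ht : t ≤ t') (hs : s ≤ s')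
    (n : ℕ) (z : HU k (XL N s') n) :
    hres k (XL_mono ht) n (hpull k (umap_lf hK hf h') n z) =
      hpull k (umap_lf hK hf h) n (hres k (XL_mono hs) n z) := by
  obtain ⟨c, hc, rfl⟩ := H.exists_mk z
  rfl

/-- pull back of global classes -/
def pullL (q : ℕ) (z : (THU N k q).Lim) : (THU M k q).Lim :=
  ⟨fun t => hpull k (umap_lf hK hf (le_refl (K * t))) q ((THU N k q).ev (K * t) z),
    fun s t h => by
      have h1 : K * s ≤ K * t := mul_le_mul_of_nonneg_left h hK
      change hres k (XL_mono h) q _ = _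
      rw [pull_res hK hf le_rfl le_rfl h h1]
      congr 1
      exact (THU N k q).ρ_ev (K * s) (K * t) h1 z⟩

theorem ev_pullL (q : ℕ) (z : (THU N k q).Lim) {s t : ℝ} (h : K * t ≤ s) :
    (THU M k q).ev t (pullL hK hf q z) =
      hpull k (umap_lf hK hf h) q ((THU N k q).ev s z) := by
  change hpull k (umap_lf hK hf (le_refl (K * t))) q ((THU N k q).ev (K * t) z) = _
  rw [← (THU N k q).ρ_ev (K * t) s h z]
  obtain ⟨c, hc, h1⟩ := H.exists_mk ((THU N k q).ev s z)
  rw [← h1]
  rfl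

theorem pull_rev {s t : ℝ} (h : K * t ≤ s) (n : ℕ) (z : HU k (XL N s) n) :
    hpull k (umap_rev t) n (hpull k (umap_lf hK hf h) n z) =
      hpull k (umap_lf hK hf h) n (hpull k (umap_rev s) n z) := by
  obtain ⟨c, hc, rfl⟩ := H.exists_mk z
  refine congrArg Submodule.Quotient.mk (Subtype.ext (funext fun x => ?_))
  exact congrArg c (funext fun i => lf_rev f (x i))

/-- **The generators of `M` and those of `N` correspond, as soon as one pull back is not zero.** -/
theorem exists_pullL_eq {B B' : ℝ} (hB : 0 ≤ B) {g : ∀ (q : ℕ) (t : ℝ), HU k (XL M t) q}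
    {g' : ∀ (q : ℕ) (t : ℝ), HU k (XL N t) q} (X : Gen M B k g) (X' : Gen N B' k g') {q : ℕ}
    (hne : ∃ (t s : ℝ) (h : K * t ≤ s), hpull k (umap_lf hK hf h) q (g' q s) ≠ 0) :
    ∃ c : k, c ≠ 0 ∧ X.gh q = c • pullL hK hf q (X'.gh q) := by
  obtain ⟨c, hc⟩ := X.exists_smul hB q (pullL hK hf q (X'.gh q))
  obtain ⟨t, s, h, hne⟩ := hne
  have hc0 : c ≠ 0 := by
    rintro rfl
    apply hne
    have h1 := ev_pullL hK hf q (X'.gh q) h
    rw [hc, zero_smul, map_zero, X'.ev_gh] at h1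
    exact h1.symm
  exact ⟨c⁻¹, inv_ne_zero hc0, by rw [hc, smul_smul, inv_mul_cancel₀ hc0, one_smul]⟩

/-- **Signs are inherited.** -/
theorem rev_of_model {B B' : ℝ} (hB : 0 ≤ B) {g : ∀ (q : ℕ) (t : ℝ), HU k (XL M t) q}
    {g' : ∀ (q : ℕ) (t : ℝ), HU k (XL N t) q} (X : Gen M B k g) (X' : Gen N B' k g') {q : ℕ}
    (hne : ∃ (t s : ℝ) (h : K * t ≤ s), hpull k (umap_lf hK hf h) q (g' q s) ≠ 0) {σ : k}
    (hs : ∀ t, hpull k (umap_rev t) q (g' q t) = σ • g' q t) (t : ℝ) :
    hpull k (umap_rev t) q (g q t) = σ • g q t := by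
  obtain ⟨c, hc, h⟩ := exists_pullL_eq hK hf hB X X' hne
  have h1 : g q t = c • hpull k (umap_lf hK hf (le_refl (K * t))) q (g' q (K * t)) := by
    have := congrArg ((THU M k q).ev t) h
    rwa [map_smul, ev_pullL hK hf q _ le_rfl, X'.ev_gh, X.ev_gh] at this
  rw [h1, map_smul, pull_rev hK hf le_rfl, hs, map_smul, smul_comm]

end Lip

end Vale.Agent.P216.Q633
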