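import Vale.Agent.P216.B633.Inf

set_option linter.unusedSectionVars false

/-!
# P216-D, block [LIFT]: towers of Gysin sequences without finiteness

`LSys k F H` = levels, restrictions and Gysin sequences, nothing else.  `LSys.Op` = an operator from
one level to another.  `LSys.d_ev_eq_zero`: the Gysin map `d` kills the global classes of one degree
if the signs of the operators exclude every target.
-/

open Module LinearMap Set

namespace Vale.Agent.P216.Q633

open Vale.Agent.P216.AS (USeq)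
open Vale.Agent.P216.B633
open Vale.Agent.P216.Tight923 (Inv)

/-- A tower of Gysin sequences. -/
structure LSys (k : Type) [Field k] (F H : ℝ → ℕ → Type)
    [∀ t n, AddCommGroup (F t n)] [∀ t n, Module k (F t n)]
    [∀ t n, AddCommGroup (H t n)] [∀ t n, Module k (H t n)] where
  TH : ∀ n, Tower k fun t => H t n
  TF : ∀ n, Tower k fun t => F t n
  G : ∀ t, USeq k (F t) (H t)
  ρ_u : ∀ n s t h x, (TF (n + 2)).ρ s t h ((G t).u n x) = (G s).u n ((TF n).ρ s t h x)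
  ρ_π : ∀ n s t h x, (TH n).ρ s t h ((G t).π n x) = (G s).π n ((TF n).ρ s t h x)
  ρ_d : ∀ n s t h x, (TF n).ρ s t h ((G t).d n x) = (G s).d n ((TH (n + 1)).ρ s t h x)

namespace LSys

variable {k : Type} [Field k] {F H : ℝ → ℕ → Type}
  [∀ t n, AddCommGroup (F t n)] [∀ t n, Module k (F t n)]
  [∀ t n, AddCommGroup (H t n)] [∀ t n, Module k (H t n)] (S : LSys k F H)

/-- a map from the level `φ` to the level `s` -/
structure Op (α δ : k) (φ s : ℝ) where
  A : ∀ n, F φ n →ₗ[k] F s n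
  B : ∀ n, H φ n →ₗ[k] H s n
  hπ : ∀ n x, B n ((S.G φ).π n x) = (S.G s).π n (A n x)
  hu : ∀ n x, A (n + 2) ((S.G φ).u n x) = α • (S.G s).u n (A n x)
  hd : ∀ n x, A n ((S.G φ).d n x) = δ • (S.G s).d n (B (n + 1) x)

variable {S}

/-- composition with the reversal of the lower level -/
def Op.rev {α δ : k} {φ s : ℝ} (W : S.Op α δ φ s) (I : Inv (S.G s)) : S.Op (-α) (-δ) φ s where
  A n := I.rF n ∘ₗ W.A n
  B n := I.rE n ∘ₗ W.B n
  hπ n x := by
    rw [LinearMap.comp_apply, W.hπ, I.hπ]; rfl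
  hu n x := by
    rw [LinearMap.comp_apply, W.hu, map_smul, I.hu, smul_neg, neg_smul]; rfl
  hd n x := by
    rw [LinearMap.comp_apply, W.hd, map_smul, I.hd, smul_neg, neg_smul]; rfl

variable (S)

/-- `u ^ m y` with `π y` global -/
def Dg (t : ℝ) : ℕ → ∀ n, Submodule k (F t n)
  | 0, n => (LinearMap.range ((S.TH n).ev t)).comap ((S.G t).π n)
  | _ + 1, 0 => ⊥
  | _ + 1, 1 => ⊥
  | m + 1, n + 2 => (Dg t m n).map ((S.G t).u n)

variable {S}

theorem ρ_mem_Dg {t T : ℝ} (h : t ≤ T)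
    (hst : ∀ e (x : H T e), (S.TH e).ρ t T h x ∈ LinearMap.range ((S.TH e).ev t)) (m n : ℕ)
    {y : F T n} (hy : y ∈ Dv (S.G T).u m n) : (S.TF n).ρ t T h y ∈ S.Dg t m n := by
  induction m generalizing n with
  | zero =>
    change (S.G t).π n ((S.TF n).ρ t T h y) ∈ LinearMap.range ((S.TH n).ev t)
    rw [← S.ρ_π]
    exact hst _ _
  | succ m ih =>
    rcases n with _ | _ | n
    · have : y = 0 := hy
      rw [this, map_zero]; exact Submodule.zero_mem _
    · have : y = 0 := hy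
      rw [this, map_zero]; exact Submodule.zero_mem _
    · obtain ⟨w, hw, rfl⟩ := hy
      rw [S.ρ_u]
      exact ⟨_, ih n hw, rfl⟩

theorem Op.key {α δ : k} {φ s : ℝ} (W : S.Op α δ φ s) (hs : s ≤ φ) (hα : α * α = 1)
    {σ : ℕ → k}
    (hB : ∀ e (x : (S.TH e).Lim), W.B e ((S.TH e).ev φ x) = σ e • (S.TH e).ev s x) (m n : ℕ)
    {y : F φ n} (hy : y ∈ S.Dg φ m n) :
    α ^ m • W.A n y - σ (n - 2 * m) • (S.TF n).ρ s φ hs y ∈ Dv (S.G s).u (m + 1) n := by
  induction m generalizing n with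
  | zero =>
    obtain ⟨x, hx⟩ : (S.G φ).π n y ∈ LinearMap.range ((S.TH n).ev φ) := hy
    have h1 : (S.G s).π n (α ^ 0 • W.A n y - σ (n - 2 * 0) • (S.TF n).ρ s φ hs y) = 0 := by
      rw [pow_zero, one_smul, map_sub, map_smul, ← W.hπ, ← S.ρ_π, ← hx, hB, (S.TH n).ρ_ev,
        mul_zero, Nat.sub_zero, sub_self]
    generalize α ^ 0 • W.A n y - σ (n - 2 * 0) • (S.TF n).ρ s φ hs y = z at h1
    rcases n with _ | _ | n
    · have : z = 0 := (S.G s).inj0 (by rw [h1, map_zero])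
      rw [this]; exact Submodule.zero_mem _
    · have : z = 0 := (S.G s).inj1 (Eq.trans h1 (map_zero ((S.G s).π 1)).symm)
      rw [this]; exact Submodule.zero_mem _
    · obtain ⟨w, rfl⟩ := ((S.G s).ex3 n z).1 h1
      exact ⟨w, Submodule.mem_top, rfl⟩
  | succ m ih =>
    rcases n with _ | _ | n
    · have : y = 0 := hy
      rw [this, map_zero, map_zero, smul_zero, smul_zero, sub_zero]; exact Submodule.zero_mem _
    · have : y = 0 := hy
      rw [this, map_zero, map_zero, smul_zero, smul_zero, sub_zero]; exact Submodule.zero_mem _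
    · obtain ⟨w, hw, rfl⟩ := hy
      have h1 := ih n hw
      refine ⟨_, h1, ?_⟩
      rw [W.hu, S.ρ_u, map_sub, map_smul, map_smul, smul_smul, pow_succ, mul_assoc, hα, mul_one,
        show n + 2 - 2 * (m + 1) = n - 2 * m by omega]

/-- **The Gysin map kills the global classes of degree `n + 1`.** -/
theorem d_ev_eq_zero {α δ : k} (hα : α * α = 1) (σ : ℕ → k)
    (hst : ∀ t, 0 ≤ t → ∃ T, ∃ h : t ≤ T, ∀ e (x : H T e),
      (S.TH e).ρ t T h x ∈ LinearMap.range ((S.TH e).ev t))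
    (hW : ∀ s, 0 ≤ s → ∃ φ, s ≤ φ ∧ ∃ W : S.Op α δ φ s, ∀ e (x : (S.TH e).Lim),
      W.B e ((S.TH e).ev φ x) = σ e • (S.TH e).ev s x) (n : ℕ)
    (hne : ∀ m e, e + 2 * m = n → σ e ≠ δ * σ (n + 1) * α ^ m)
    (x : (S.TH (n + 1)).Lim) (s : ℝ) : (S.G s).d n ((S.TH (n + 1)).ev s x) = 0 := by
  have main : ∀ m s, 0 ≤ s → (S.G s).d n ((S.TH (n + 1)).ev s x) ∈ Dv (S.G s).u m n := by
    intro m
    induction m with
    | zero => exact fun _ _ => Submodule.mem_top
    | succ m ih =>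
      intro s hs
      obtain ⟨φ, hφ, W, hB⟩ := hW s hs
      obtain ⟨T, hT, hstT⟩ := hst φ (hs.trans hφ)
      have h1 := ih T (hs.trans (hφ.trans hT))
      have hr : ∀ t t' (h : t ≤ t'), (S.TF n).ρ t t' h ((S.G t').d n ((S.TH (n + 1)).ev t' x)) =
          (S.G t).d n ((S.TH (n + 1)).ev t x) := fun t t' h => by
        rw [S.ρ_d, (S.TH (n + 1)).ρ_ev]
      rcases Nat.lt_or_ge n (2 * m) with h | h
      · rw [Dv_eq_bot _ _ _ h] at h1
        have h3 : (S.G T).d n ((S.TH (n + 1)).ev T x) = 0 := h1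
        rw [← hr s T (hφ.trans hT), h3, map_zero]
        exact Submodule.zero_mem _
      · have h3 := ρ_mem_Dg hT hstT m n h1
        rw [hr] at h3
        have h4 := W.key hφ hα hB m n h3
        rw [hr] at h4
        rw [W.hd, hB, map_smul, smul_smul, smul_smul, ← sub_smul] at h4
        have h5 : α ^ m * δ * σ (n + 1) - σ (n - 2 * m) ≠ 0 := fun h0 =>
          hne m (n - 2 * m) (by omega) (by linear_combination -h0)
        have h6 := Submodule.smul_mem _ (α ^ m * δ * σ (n + 1) - σ (n - 2 * m))⁻¹ h4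
        rwa [smul_smul, inv_mul_cancel₀ h5, one_smul] at h6
  have h1 := main (n + 1) (max s 0) (le_max_right _ _)
  rw [Dv_eq_bot _ _ _ (by omega)] at h1
  have h3 : (S.G (max s 0)).d n ((S.TH (n + 1)).ev (max s 0) x) = 0 := h1
  rw [← (S.TH (n + 1)).ρ_ev s (max s 0) (le_max_left _ _), ← S.ρ_d, h3, map_zero]

/-- `F 0` is `H 0` -/
theorem π_zero_bij (t : ℝ) : Function.Bijective ((S.G t).π 0) := ⟨(S.G t).inj0, (S.G t).surj0⟩

/-- `u ^ m` from degree `0` -/
def up (t : ℝ) : ∀ m : ℕ, F t 0 →ₗ[k] F t (2 * m)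
  | 0 => LinearMap.id
  | m + 1 => (S.G t).u (2 * m) ∘ₗ up t m

theorem ρ_up {s t : ℝ} (h : s ≤ t) (m : ℕ) (x : F t 0) :
    (S.TF (2 * m)).ρ s t h (S.up t m x) = S.up s m ((S.TF 0).ρ s t h x) := by
  induction m with
  | zero => rfl
  | succ m ih =>
    have h1 := S.ρ_u (2 * m) s t h (S.up t m x)
    rw [ih] at h1
    exact h1

theorem exists_up {t : ℝ} (m : ℕ) {y : F t (2 * m)} (hy : y ∈ Dv (S.G t).u m (2 * m)) :
    ∃ x, y = S.up t m x := by
  induction m with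
  | zero => exact ⟨y, rfl⟩
  | succ m ih =>
    obtain ⟨w, hw, rfl⟩ := hy
    obtain ⟨x, rfl⟩ := ih hw
    exact ⟨x, rfl⟩

/-- If the odd groups of the level vanish then `u ^ m` is injective on degree `0`. -/
theorem up_injective {t : ℝ} (hodd : ∀ i, i % 2 = 1 → Subsingleton (H t i)) (m : ℕ) :
    Function.Injective (S.up t m) := by
  induction m with
  | zero => exact Function.injective_id
  | succ m ih =>
    refine Function.Injective.comp (g := (S.G t).u (2 * m)) ?_ ih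
    rw [injective_iff_map_eq_zero]
    intro x hx
    obtain ⟨z, rfl⟩ := ((S.G t).ex2 (2 * m) x).1 hx
    have := hodd (2 * m + 1) (by omega)
    rw [Subsingleton.elim z 0, map_zero]

/-- **The Gysin map kills the global classes of degree `2 m + 1`**, when the signs exclude all
targets but the multiples of `u ^ m`, and the low level `t₀` has no odd cohomology. -/
theorem d_ev_eq_zero_low {α δ : k} (hα : α * α = 1) (σ : ℕ → k)
    (hst : ∀ t, 0 ≤ t → ∃ T, ∃ h : t ≤ T, ∀ e (x : H T e),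
      (S.TH e).ρ t T h x ∈ LinearMap.range ((S.TH e).ev t))
    (hW : ∀ s, 0 ≤ s → ∃ φ, s ≤ φ ∧ ∃ W : S.Op α δ φ s, ∀ e (x : (S.TH e).Lim),
      W.B e ((S.TH e).ev φ x) = σ e • (S.TH e).ev s x) (m₀ : ℕ)
    (hne : ∀ m e, e + 2 * m = 2 * m₀ → e ≠ 0 → σ e ≠ δ * σ (2 * m₀ + 1) * α ^ m)
    {t₀ : ℝ} (ht₀ : 0 ≤ t₀) (hodd : ∀ i, i % 2 = 1 → Subsingleton (H t₀ i))
    (w : (S.TH 0).Lim) (hw : ∀ x : (S.TH 0).Lim, ∃ c : k, x = c • w)
    (hw0 : (S.TH 0).ev t₀ w ≠ 0)
    (x : (S.TH (2 * m₀ + 1)).Lim) (s : ℝ) :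
    (S.G s).d (2 * m₀) ((S.TH (2 * m₀ + 1)).ev s x) = 0 := by
  have hr : ∀ t t' (h : t ≤ t'), (S.TF (2 * m₀)).ρ t t' h
      ((S.G t').d (2 * m₀) ((S.TH (2 * m₀ + 1)).ev t' x)) =
      (S.G t).d (2 * m₀) ((S.TH (2 * m₀ + 1)).ev t x) := fun t t' h => by
    rw [S.ρ_d, (S.TH (2 * m₀ + 1)).ρ_ev]
  have main : ∀ m, m ≤ m₀ → ∀ s, 0 ≤ s →
      (S.G s).d (2 * m₀) ((S.TH (2 * m₀ + 1)).ev s x) ∈ Dv (S.G s).u m (2 * m₀) := by
    intro m
    induction m with
    | zero => exact fun _ _ _ => Submodule.mem_top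
    | succ m ih =>
      intro hm s hs
      obtain ⟨φ, hφ, W, hB⟩ := hW s hs
      obtain ⟨T, hT, hstT⟩ := hst φ (hs.trans hφ)
      have h1 := ih (by omega) T (hs.trans (hφ.trans hT))
      have h3 := ρ_mem_Dg hT hstT m (2 * m₀) h1
      rw [hr] at h3
      have h4 := W.key hφ hα hB m (2 * m₀) h3
      rw [hr] at h4
      rw [W.hd, hB, map_smul, smul_smul, smul_smul, ← sub_smul] at h4
      have h5 : α ^ m * δ * σ (2 * m₀ + 1) - σ (2 * m₀ - 2 * m) ≠ 0 := fun h0 =>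
        hne m (2 * m₀ - 2 * m) (by omega) (by omega) (by linear_combination -h0)
      have h6 := Submodule.smul_mem _ (α ^ m * δ * σ (2 * m₀ + 1) - σ (2 * m₀ - 2 * m))⁻¹ h4
      rwa [smul_smul, inv_mul_cancel₀ h5, one_smul] at h6
  -- the generator of the global classes in degree zero, on `F`
  have key : ∀ t, t₀ ≤ t → (S.G t).d (2 * m₀) ((S.TH (2 * m₀ + 1)).ev t x) = 0 := by
    intro t ht
    have ht' := ht₀.trans ht
    obtain ⟨T, hT, hstT⟩ := hst t ht'
    obtain ⟨v, hv⟩ := S.exists_up m₀ (main m₀ le_rfl T (ht'.trans hT))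
    obtain ⟨z, hz⟩ := hstT 0 ((S.G T).π 0 v)
    obtain ⟨c, rfl⟩ := hw z
    have e1 : (S.G t).π 0 ((S.TF 0).ρ t T hT v) = c • (S.TH 0).ev t w := by
      rw [← S.ρ_π, ← hz, map_smul]
    have e2 : (S.G t).d (2 * m₀) ((S.TH (2 * m₀ + 1)).ev t x) =
        S.up t m₀ ((S.TF 0).ρ t T hT v) := by
      rw [← hr t T hT, hv, S.ρ_up]
    have e3 : (S.G t₀).d (2 * m₀) ((S.TH (2 * m₀ + 1)).ev t₀ x) = 0 := by
      have := hodd (2 * m₀ + 1) (by omega)
      rw [Subsingleton.elim ((S.TH (2 * m₀ + 1)).ev t₀ x) 0, map_zero]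
    rw [← hr t₀ t ht, e2, S.ρ_up] at e3
    have e4 : (S.TF 0).ρ t₀ t ht ((S.TF 0).ρ t T hT v) = 0 :=
      S.up_injective hodd m₀ (e3.trans (map_zero _).symm)
    have e5 : c • (S.TH 0).ev t₀ w = 0 := by
      have h7 := S.ρ_π 0 t₀ t ht ((S.TF 0).ρ t T hT v)
      rw [e1, e4, map_zero, map_smul, (S.TH 0).ρ_ev] at h7
      exact h7
    have hc : c = 0 := (smul_eq_zero.1 e5).resolve_right hw0
    have e6 : (S.TF 0).ρ t T hT v = 0 := (S.G t).inj0 (by rw [e1, hc, zero_smul, map_zero])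
    rw [e2, e6, map_zero]
  rw [← hr s (max s t₀) (le_max_left _ _), key _ (le_max_right _ _), map_zero]

end LSys

end Vale.Agent.P216.Q633
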