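import Vale.Agent.P216.Q633.Gen
import Vale.Agent.P216.B633.PRho

set_option linter.unusedSectionVars false

/-!
# P216-D, block [LIFT]: on a model sphere of dimension `1 (mod 4)` all even classes lift

`d_model`: the Gysin map kills the compatible families of even degree on `XL N s`, `N` compact with
unique short segments, `X : XOut N n B k` with `RhoSign X f ε`.  No finiteness hypothesis on `N`.
-/

open Set Topology

noncomputable section

namespace Vale.Agent.P216.Q633

open AS B64 L250 GM B633
open Vale.Agent.P216.B633 (Tower)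

section

variable {N : Type} [MetricSpace N] [CompactSpace N] {ρ : ℝ} (hρ : 0 < ρ) (hU : LS.UniqSeg N ρ)
  {n : ℕ} (hn : 4 ≤ n) (hn4 : n % 4 = 1) {f : C(N, N)} {ε B : ℝ} (hε : 0 < ε) (hB : 0 < B)
  {k : Type} [Field k] {p : ℕ} (hp : 0 < p) [CharP k p] (h2 : 2 < p) (hk : (2 : k) ≠ 0)
  (X : XOut N n B k) (hX : RhoSign X f ε)

include hρ hU hn hn4 hε hB hk hX

/-- **The Gysin map kills the global classes of even degree of the model sphere.** -/
theorem d_model {q : ℕ} (hq : q % 2 = 1) (x : (THU N k (q + 1)).Lim) (s : ℝ) :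
    (gysN N k hp h2 s).d q ((THU N k (q + 1)).ev s x) = 0 := by
  have hsq : ∀ l : ℕ, (-1 : k) ^ l * (-1 : k) ^ l = 1 := fun l => by rw [← mul_pow]; simp
  refine (lsysN N k hp h2).d_ev_eq_zero (α := -1) (δ := -1) (by ring) (sg1 k) (fun t ht => ?_)
    (fun s hs => ?_) q (fun m e' h => sg1_ne hk (by omega) h) x s
  · exact ⟨t + B, by linarith, fun e x => (gen_of X).mem_range hB.le ht e x⟩
  · obtain ⟨s', hs', R, hc, hm, hrot, -, hap⟩ := H971.exists_approx hρ hU f hp s hε
    have hXs0 : XL N s = XE N s := XL_eq hs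
    have hφ : XE N s' ⊆ XL N (max s s') := by
      rw [XL_eq (hs.trans (le_max_left _ _))]
      exact XE_mono hs' (le_max_right _ _)
    have hc' : ContinuousOn R (XL N s) := hXs0 ▸ hc
    have hm' : MapsTo R (XL N s) (XL N (max s s')) := fun g hg => hφ (hm (hXs0 ▸ hg))
    have hUm := umap_of hc' hm'
    have hr : ∀ x ∈ XL N s, R (rot (1 / p : ℝ) x) = rot (1 / p : ℝ) (R x) :=
      fun x hx => hrot x (hXs0 ▸ hx)
    have hA : Approx f ε s R := fun g hg u => hap g (hXs0 ▸ hg) u
    obtain ⟨e0, ex, ey⟩ := hX s (max s s') R hUm hs (hs.trans (le_max_left _ _)) hA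
    refine ⟨max s s', le_max_left _ _, (opN k hp h2 hUm hr).rev (invN N k hp h2 s),
      fun e x => ?_⟩
    obtain ⟨c, rfl⟩ := (gen_of X).exists_smul hB.le e x
    change (invN N k hp h2 s).rE e (hpull k hUm e ((THU N k e).ev (max s s')
      (c • (gen_of X).gh e))) = sg1 k e • (THU N k e).ev s (c • (gen_of X).gh e)
    rw [invN_rE, map_smul, map_smul, map_smul, map_smul, (gen_of X).ev_gh, (gen_of X).ev_gh,
      smul_comm (sg1 k e) c]
    congr 1
    by_cases hD : Deg n e
    · rcases hD with rfl | ⟨j, rfl | rfl⟩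
      · rw [e0, X.rev_zero]
        simp [sg1]
      · have h3 := e_par hn j
        rw [ex, map_smul, X.rev_x, smul_smul, hsq, sg1, if_pos (by omega),
          npk (b := 0) (sign_x1 hn hn4 j), pow_zero]
      · have h3 := e_par hn j
        rw [ey, map_smul, X.rev_y, smul_smul, sg1, if_neg (by omega),
          npk (b := 1) (sign_y1 hn hn4 j), pow_one, pow_succ]
        congr 1
        linear_combination -hsq j
    · rw [X.g_zero e _ hD, X.g_zero e _ hD, map_zero, map_zero, smul_zero]

end

end Vale.Agent.P216.Q633
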