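import Vale.Agent.P216.Q633.LiftY
import Vale.Agent.P216.Q633.ModN

set_option linter.unusedSectionVars false

/-!
# P216-D, block [LIFT]: lifts on `M` from lifts on a model, along a Lipschitz map `f : M → N`

* `d_sheet`: the Gysin map of the `GSys` of `M` (trivial double cover) is that of the tower `XL M t`
  (no deck transformation);
* `d_lf`: naturality of the Gysin map for the composition with `f`;
* `lift_of_model`: the even classes lift for `M`, if they do for the model.
-/

open Set Topology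

noncomputable section

namespace Vale.Agent.P216.Q633

open AS DV Circ.PSt DV965 B64 L250 GM B609 B633 H288 H494
open Vale.Agent.P216.B633 (Tower RegCof)

/-! ### Maps between different spaces commuting with the rotations -/

section Pull

variable {E E' : Type} [PseudoMetricSpace E] [PseudoMetricSpace E'] {k : Type} [Field k]
  {I I' : Type} {m : ℕ} (Y : Sym E k I m) (Y' : Sym E' k I' m) [CharP k m] (h2 : 2 < m)
  {A : ℝ → E → E} (hA : Arc Y.g A) {A' : ℝ → E' → E'} (hA' : Arc Y'.g A') {f : E → E'}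
  (hf : ∀ x, f (Y.g x) = Y'.g (f x)) {X : Set E} (h : Y.Good X)

include hf in
theorem comm_pb {n : ℕ} (c : (ASK E' k).K n) :
    (circSym Y h2 hA).A n (pbK k f n c) - pbK k f n ((circSym Y' h2 hA').A n c) ∈
      (Sym.PA h).T.S n := by
  change sumK Y _ n (pbK k f n c) - pbK k f n (sumK Y' _ n c) ∈ _
  rw [sumK_pb Y Y' hf, sub_self]
  exact Submodule.zero_mem _

end Pull

/-! ### The sheet -/

section Sheet

variable {M : Type} [MetricSpace M] [CompactSpace M] (G : GeoList M)
  (hD : DescentStmt (Hol.triv : Hol M) G) (k : Type) [Field k] {p : ℕ} [CharP k p]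
  (hp : p.Prime) (h2 : 2 < p)

theorem secL_rot (x : LM M) : secL ((symN M k hp.pos).g x) =
    ((mkGSys Hol.triv G hD).sym k p hp.pos).g (secL x) := rfl

theorem isGMor_secL (t : ℝ) :
    IsGMor ((mkGSys Hol.triv G hD).P k p hp.pos t) (PN M k hp.pos t) (pbK k (secL (M := M))) :=
  isGMor_pb (symN M k hp.pos) ((mkGSys Hol.triv G hD).sym k p hp.pos) (goodN M k hp.pos t)
    ((mkGSys Hol.triv G hD).good k p hp.pos t) (secL_rot G hD k hp) (fun _ hx => secL_mem hx)
    (fun ε hε => ⟨ε, hε, fun x _ y _ h => by rwa [dist_secL]⟩) fun _ _ _ i => i.elim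

theorem mapH_secL (t : ℝ) (n : ℕ) (x : (mkGSys Hol.triv G hD).V k t n) :
    (isGMor_secL G hD k hp t).mapH n x = phi G hD k t n x := by
  obtain ⟨c, hc, rfl⟩ := H.exists_mk x
  rfl

theorem comm_secL (t : ℝ) {n : ℕ} (c : (ASK (LM M × ℂ) k).K n) :
    (circN M k hp.pos h2).A n (pbK k secL n c) -
      pbK k secL n (((rotSMk Hol.triv G hD).circ k p hp.pos h2).A n c) ∈
      (PN M k hp.pos t).T.S n :=
  comm_pb (symN M k hp.pos) ((mkGSys Hol.triv G hD).sym k p hp.pos) h2 (isArcN M k hp.pos)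
    ((rotSMk Hol.triv G hD).isArc k p hp.pos) (secL_rot G hD k hp) (goodN M k hp.pos t) c

/-- the isomorphism of the equivariant groups -/
def secF (t : ℝ) (n : ℕ) : (rotSMk Hol.triv G hD).F k hp h2 t n →ₗ[k] FN M k hp.pos h2 t n :=
  mapF ((rotSMk Hol.triv G hD).pst k p hp.pos h2 t) (pstN M k hp.pos h2 t)
    (isGMor_secL G hD k hp t) (fun {_ c} _ => comm_secL G hD k hp h2 t c) n

theorem secF_bijective (t : ℝ) (n : ℕ) : Function.Bijective (secF G hD k hp h2 t n) :=
  mapF_bijective' _ _ _ _ (fun n => by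
    have h : ((isGMor_secL G hD k hp t).mapH n : _ → _) = phi G hD k t n :=
      funext fun x => mapH_secL G hD k hp t n x
    rw [h]
    exact (phi G hD k t n).bijective) n

/-- naturality of `d` -/
theorem secF_d (t : ℝ) (n : ℕ) (x : (mkGSys Hol.triv G hD).V k t (n + 1)) :
    secF G hD k hp h2 t n (((rotSMk Hol.triv G hD).gys k hp h2 t).d n x) =
      (gysN M k hp.pos h2 t).d n (phi G hD k t (n + 1) x) := by
  rw [← mapH_secL G hD k hp]
  exact (dF_mapH ((rotSMk Hol.triv G hD).pst k p hp.pos h2 t) (pstN M k hp.pos h2 t)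
    (isGMor_secL G hD k hp t) (fun {_ c} _ => comm_secL G hD k hp h2 t c) n x).symm

/-- **The Gysin map in the two frames.** -/
theorem d_sheet (t : ℝ) (n : ℕ) {x : (mkGSys Hol.triv G hD).V k t (n + 1)}
    (h : (gysN M k hp.pos h2 t).d n (phi G hD k t (n + 1) x) = 0) :
    ((rotSMk Hol.triv G hD).gys k hp h2 t).d n x = 0 :=
  (secF_bijective G hD k hp h2 t n).1 (by rw [secF_d, h, map_zero])

end Sheet

/-! ### Composition with a Lipschitz map -/

section Lf

variable {M N : Type} [MetricSpace M] [CompactSpace M] [MetricSpace N] [CompactSpace N]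
  {f : C(M, N)} {K : ℝ} (hK : 0 ≤ K) (hf : ∀ x y, dist (f x) (f y) ≤ K * dist x y)
  (k : Type) [Field k] {p : ℕ} (hp : 0 < p) [CharP k p] (h2 : 2 < p)

theorem lf_rotN (f : C(M, N)) (x : LM M) : lf f ((symN M k hp).g x) = (symN N k hp).g (lf f x) :=
  lf_rot f _ x

include hK hf in
theorem isGMor_lf {s t : ℝ} (h : K * t ≤ s) :
    IsGMor (PN N k hp s) (PN M k hp t) (pbK k (lf f)) :=
  isGMor_pb (symN M k hp) (symN N k hp) (goodN M k hp t) (goodN N k hp s) (lf_rotN k hp f)
    (umap_lf hK hf h).mapsX (by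
      intro ε hε
      obtain ⟨δ, hδ, h1⟩ := (umap_lf hK hf h).uc ε hε
      exact ⟨δ, hδ, fun x hx y hy => h1 x hx y hy⟩) fun _ _ _ i => i.elim

/-- **naturality of the Gysin map** -/
theorem d_lf {s t : ℝ} (h : K * t ≤ s) (n : ℕ) {z : HU k (XL N s) (n + 1)}
    (hz : (gysN N k hp h2 s).d n z = 0) :
    (gysN M k hp h2 t).d n (hpull k (umap_lf hK hf h) (n + 1) z) = 0 := by
  have h3 := dF_mapH (pstN N k hp h2 s) (pstN M k hp h2 t) (isGMor_lf hK hf k hp h)
    (fun {_ c} _ => comm_pb (symN M k hp) (symN N k hp) h2 (isArcN M k hp) (isArcN N k hp)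
      (lf_rotN k hp f) (goodN M k hp t) c) n z
  have h4 : (isGMor_lf hK hf k hp h).mapH (n + 1) z = hpull k (umap_lf hK hf h) (n + 1) z := by
    obtain ⟨c, hc, rfl⟩ := H.exists_mk z
    rfl
  rw [← h4]
  refine h3.trans ?_
  have h5 : (pstN N k hp h2 s).dF n z = 0 := hz
  rw [h5, map_zero]

end Lf

end Vale.Agent.P216.Q633
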