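import Vale.Agent.P216.Q633.LiftD

set_option linter.unusedSectionVars false

/-!
# P216-D, block [LIFT]: `XOut M n B k` and the lifts for `M` from a model `N`

* `XPre M n B k`: `XOut` without the signs;
* `XPre.toXOut`: the signs come from a model, if the pull backs of the generators are not zero;
* `lift_of_model`: the field `lift` for `M`, from the model.
-/

open Set Topology

noncomputable section

namespace Vale.Agent.P216.Q633

open AS DV B64 L250 GM B609 B633 H288 H494 DV706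
open Vale.Agent.P216.B633 (Tower RegCof)

/-- `XOut` without the signs. -/
structure XPre (M : Type) [MetricSpace M] (n : ℕ) (B : ℝ) (k : Type) [Field k] where
  g : ∀ (q : ℕ) (t : ℝ), HU k (XL M t) q
  res_g : ∀ q s t (h : s ≤ t), hres k (XL_mono h) q (g q t) = g q s
  span : ∀ q t, 0 ≤ t → ∀ (h : XL M t ⊆ XL M (t + B)) (z : HU k (XL M (t + B)) q),
    ∃ c : k, hres k h q z = c • g q t
  g_zero : ∀ q t, ¬ Deg n q → g q t = 0
  birth0 : ∀ t, B ≤ t → g (kk n 0 * (n - 1)) t ≠ 0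
  birth : ∀ i t, 0 ≤ t → g (kk n i * (n - 1)) t ≠ 0 →
    g (kk n (i + 1) * (n - 1)) (t + B) ≠ 0

theorem XPre.gen {M : Type} [MetricSpace M] {n : ℕ} {B : ℝ} {k : Type} [Field k]
    (X : XPre M n B k) : Gen M B k X.g := ⟨X.res_g, X.span⟩

theorem hone_ne {M : Type} [MetricSpace M] {k : Type} [Field k] (x : M) (t : ℝ) :
    hone k (XL M t) ≠ 0 := by
  intro h
  rw [hone, AS.H.mk_eq_zero, AS.mem_Bc_zero] at h
  obtain ⟨w, hw⟩ := XL_nonempty x t
  obtain ⟨-, ε, hε, h1⟩ := h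
  exact one_ne_zero (h1 (fun _ => w) ⟨fun _ => hw, fun i j => by simpa using hε⟩)

section

variable {M N : Type} [MetricSpace M] [MetricSpace N]
  {f : C(M, N)} {K : ℝ} (hK : 0 ≤ K) (hf : ∀ x y, dist (f x) (f y) ≤ K * dist x y)
  {k : Type} [Field k] {n : ℕ}

include hK hf in
/-- **`XOut` for `M`, with the signs of the model.** -/
def XPre.toXOut (x₀ : M) {B B' : ℝ} (hB : 0 ≤ B) (X : XPre M n B k) (X' : XOut N n B' k)
    (hx : ∀ i, ∃ (t s : ℝ) (h : K * t ≤ s),
      hpull k (umap_lf hK hf h) _ (X'.g (kk n i * (n - 1)) s) ≠ 0)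
    (hy : ∀ i, ∃ (t s : ℝ) (h : K * t ≤ s),
      hpull k (umap_lf hK hf h) _ (X'.g (kk n i * (n - 1) + 1) s) ≠ 0) : XOut M n B k where
  g := X.g
  res_g := X.res_g
  span := X.span
  g_zero := X.g_zero
  rev_zero t := by
    have h0 : ∀ t : ℝ, 0 ≤ t → hpull k (umap_rev t) 0 (X.g 0 t) = X.g 0 t := by
      intro t ht
      obtain ⟨c, hc⟩ := X.span 0 t ht (XL_mono (by linarith)) (hone k (XL M (t + B)))
      have e1 : hres k (XL_mono (show t ≤ t + B by linarith)) 0 (hone k (XL M (t + B))) =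
          hone k (XL M t) := rfl
      rw [e1] at hc
      have hc0 : c ≠ 0 := by
        rintro rfl
        rw [zero_smul] at hc
        exact hone_ne x₀ t hc
      have e2 : X.g 0 t = c⁻¹ • hone k (XL M t) := by
        rw [hc, smul_smul, inv_mul_cancel₀ hc0, one_smul]
      have e3 : hpull k (umap_rev t) 0 (hone k (XL M t)) = hone k (XL M t) := rfl
      rw [e2, map_smul, e3]
    have h1 := h0 (max t 0) (le_max_right _ _)
    rw [← X.res_g 0 t (max t 0) (le_max_left _ _)]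
    conv_rhs => rw [← h1]
    obtain ⟨c, hc, h2⟩ := H.exists_mk (X.g 0 (max t 0))
    rw [← h2]
    rfl
  rev_x i t := rev_of_model hK hf hB X.gen (gen_of X') (hx i) (fun t => X'.rev_x i t) t
  rev_y i t := rev_of_model hK hf hB X.gen (gen_of X') (hy i) (fun t => X'.rev_y i t) t
  birth0 := X.birth0
  birth := X.birth

end

section Lift

variable {M N : Type} [MetricSpace M] [CompactSpace M] [MetricSpace N] [CompactSpace N]
  {f : C(M, N)} {K : ℝ} (hK : 0 ≤ K) (hf : ∀ x y, dist (f x) (f y) ≤ K * dist x y)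
  (G : GeoList M) (hD : DescentStmt (Hol.triv : Hol M) G)
  {k : Type} [Field k] {p : ℕ} [CharP k p] (hp : p.Prime) (h2 : 2 < p) {n : ℕ}

include hK hf in
/-- **The Gysin map kills the generators of `M` which come from the model.** -/
theorem d_gen_eq_zero {B B' : ℝ} (hB : 0 ≤ B) {g : ∀ (q : ℕ) (t : ℝ), HU k (XL M t) q}
    {g' : ∀ (q : ℕ) (t : ℝ), HU k (XL N t) q} (X : Gen M B k g) (X' : Gen N B' k g') {q : ℕ}
    (hN : ∀ (x : (THU N k (q + 1)).Lim) (s : ℝ),
      (gysN N k hp.pos h2 s).d q ((THU N k (q + 1)).ev s x) = 0)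
    (hne : ∃ (t s : ℝ) (h : K * t ≤ s), hpull k (umap_lf hK hf h) _ (g' (q + 1) s) ≠ 0)
    (t : ℝ) : (gysN M k hp.pos h2 t).d q (g (q + 1) t) = 0 := by
  obtain ⟨c, hc, h⟩ := exists_pullL_eq hK hf hB X X' hne
  have h1 : g (q + 1) t =
      c • hpull k (umap_lf hK hf (le_refl (K * t))) (q + 1) (g' (q + 1) (K * t)) := by
    have := congrArg ((THU M k (q + 1)).ev t) h
    rwa [map_smul, ev_pullL hK hf (q + 1) _ le_rfl, X'.ev_gh, X.ev_gh] at this
  have h3 := d_lf hK hf k hp.pos h2 (le_refl (K * t)) q (hN (X'.gh (q + 1)) (K * t))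
  rw [X'.ev_gh] at h3
  rw [h1, map_smul, h3, smul_zero]

include hK hf in
/-- **The field `lift` for `M`, from the model.** -/
theorem lift_of_model (hfin : RotS.FinAt (S0 G hD) k) {a : ℕ → ℝ} (ha : RegCof (Crit G.ℓ) a)
    (hn : 4 ≤ n) {B B' : ℝ} (hB : 0 < B) (X : XOut M n B k)
    {g' : ∀ (q : ℕ) (t : ℝ), HU k (XL N t) q} (X' : Gen N B' k g')
    (hN : ∀ q, (q + 1) % 2 = (n - 1) % 2 → ∀ (x : (THU N k (q + 1)).Lim) (s : ℝ),
      (gysN N k hp.pos h2 s).d q ((THU N k (q + 1)).ev s x) = 0)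
    (hx : ∀ i, ∃ (t s : ℝ) (h : K * t ≤ s),
      hpull k (umap_lf hK hf h) _ (g' (kk n i * (n - 1)) s) ≠ 0) (e : ℕ)
    (he : e % 2 = (n - 1) % 2) :
    Function.Surjective ((T0 G hD k hp h2 hfin).πi e) := by
  let Φ := xiso G hD k hp h2 hfin
  rcases e with _ | e
  · exact ((T0 G hD k hp h2 hfin).Gi ha).surj0
  intro x
  apply (((T0 G hD k hp h2 hfin).Gi ha).ex1 e x).1
  change (T0 G hD k hp h2 hfin).di e x = 0
  obtain ⟨c, rfl⟩ := Φ.exists_smul X hB (e + 1) x
  rw [map_smul]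
  refine (congrArg _ ?_).trans (smul_zero c)
  refine ((T0 G hD k hp h2 hfin).TF e).ext fun t => ?_
  change (T0 G hD k hp h2 hfin).rF t e ((T0 G hD k hp h2 hfin).di e (Φ.gh X (e + 1))) =
    (T0 G hD k hp h2 hfin).rF t e 0
  rw [TSys.rF_di, map_zero]
  refine d_sheet G hD k hp h2 t e ?_
  have e1 : phi G hD k t (e + 1) ((T0 G hD k hp h2 hfin).rH t (e + 1) (Φ.gh X (e + 1))) =
      X.g (e + 1) t := Φ.φ_gh X t (e + 1)
  rw [e1]
  by_cases hDg : Deg n (e + 1)
  · obtain ⟨i, hi⟩ := deg_x hn hDg he (by omega)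
    refine d_gen_eq_zero hK hf hp h2 hB.le (gen_of X) X' (hN e he) ?_ t
    rw [hi]
    exact hx i
  · rw [X.g_zero _ _ hDg, map_zero]

end Lift

end Vale.Agent.P216.Q633
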