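import Vale.Agent.P216.B633.Inf
import Vale.Agent.P216.H994.T2Iface

set_option linter.unusedSectionVars false

/-!
# P216, Theorem C: from the level-wise system (`p = 2`) to `T2Sys`

`TSys2` = what topology delivers level by level; the global classes are the inverse limits.
`TSys2.toT2Sys` = the assembly.  `TSys2.surjective_of_lift` = the Gysin criterion for lifts.
-/

open Module LinearMap

namespace Vale.Agent.P216.Q633

open Vale.Agent.P216.AS (USeq finrank_of_exact)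
open Vale.Agent.P216.T695
open Vale.Agent.P216.B633 (Tower RegCof finF_of_finH)
open Vale.Agent.P216.H994

/-- The level-wise part of `T2Sys`. -/
structure TSys2 (k : Type) [Field k] (p : ℕ) (crit : Set ℝ) where
  H : ℝ → ℕ → Type
  F : ℝ → ℕ → Type
  [agH : ∀ t n, AddCommGroup (H t n)]
  [moH : ∀ t n, Module k (H t n)]
  [agF : ∀ t n, AddCommGroup (F t n)]
  [moF : ∀ t n, Module k (F t n)]
  /-- restriction maps -/
  TH : ∀ n, Tower k fun t => H t n
  TF : ∀ n, Tower k fun t => F t n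
  /-- Gysin sequence at the level `t` -/
  G : ∀ t, USeq k (F t) (H t)
  ρ_u : ∀ n s t h x, (TF (n + 2)).ρ s t h ((G t).u n x) = (G s).u n ((TF n).ρ s t h x)
  ρ_π : ∀ n s t h x, (TH n).ρ s t h ((G t).π n x) = (G s).π n ((TF n).ρ s t h x)
  ρ_d : ∀ n s t h x, (TF n).ρ s t h ((G t).d n x) = (G s).d n ((TH (n + 1)).ρ s t h x)
  /-- reversal -/
  θ : ∀ t n, H t n →ₗ[k] H t n
  θθ : ∀ t n x, θ t n (θ t n x) = x
  θ_ρ : ∀ n s t h x, θ s n ((TH n).ρ s t h x) = (TH n).ρ s t h (θ t n x)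
  /-- finiteness -/
  finH : ∀ t, 0 < t → t ∉ crit → ∀ n, FiniteDimensional k (H t n)
  /-- localisation -/
  L : ∀ t, 0 < t → t ∉ crit → Loc k (F t) (H (t / p)) (G t).u
  /-- the localisation is natural -/
  ℓ_ρ : ∀ s t (hs0 : 0 < s) (hs : s ∉ crit) (ht0 : 0 < t) (ht : t ∉ crit) (h : s ≤ t)
    (h' : s / p ≤ t / p) e j x,
    (L s hs0 hs).ℓ e j ((TF e).ρ s t h x) = (TH j).ρ (s / p) (t / p) h' ((L t ht0 ht).ℓ e j x)

attribute [instance] TSys2.agH TSys2.moH TSys2.agF TSys2.moF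

namespace TSys2

variable {k : Type} [Field k] {p : ℕ} {crit : Set ℝ} (S : TSys2 k p crit)

/-- global classes -/
abbrev Hi (n : ℕ) : Type := (S.TH n).Lim
/-- global equivariant classes -/
abbrev Fi (n : ℕ) : Type := (S.TF n).Lim

/-- restriction of the global classes -/
abbrev rH (t : ℝ) (n : ℕ) : S.Hi n →ₗ[k] S.H t n := (S.TH n).ev t
abbrev rF (t : ℝ) (n : ℕ) : S.Fi n →ₗ[k] S.F t n := (S.TF n).ev t

def ui (n : ℕ) : S.Fi n →ₗ[k] S.Fi (n + 2) := Tower.map (fun t => (S.G t).u n) (S.ρ_u n)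
def πi (n : ℕ) : S.Fi n →ₗ[k] S.Hi n := Tower.map (fun t => (S.G t).π n) (S.ρ_π n)
def di (n : ℕ) : S.Hi (n + 1) →ₗ[k] S.Fi n := Tower.map (fun t => (S.G t).d n) (S.ρ_d n)

theorem rF_ui (t : ℝ) (n : ℕ) (x : S.Fi n) : S.rF t (n + 2) (S.ui n x) = (S.G t).u n (S.rF t n x) :=
  rfl

theorem rH_πi (t : ℝ) (n : ℕ) (x : S.Fi n) : S.rH t n (S.πi n x) = (S.G t).π n (S.rF t n x) := rfl

theorem rF_di (t : ℝ) (n : ℕ) (x : S.Hi (n + 1)) :
    S.rF t n (S.di n x) = (S.G t).d n (S.rH t (n + 1) x) := rfl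

theorem finF (t : ℝ) (h0 : 0 < t) (ht : t ∉ crit) (n : ℕ) : FiniteDimensional k (S.F t n) :=
  finF_of_finH (S.G t) (S.finH t h0 ht) n

variable {a : ℕ → ℝ} (ha : RegCof crit a)

include ha

/-- exactness of the global Gysin sequence -/
theorem exact_πi_di (n : ℕ) : Function.Exact (S.πi (n + 1)) (S.di n) := by
  have : ∀ i, FiniteDimensional k (S.F (a i) (n + 1)) := fun i =>
    S.finF _ (ha.pos i) (ha.reg i) _
  exact Tower.exact ha.toCof _ _ _ _ fun t => (S.G t).ex1 n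

theorem surj_πi_zero : Function.Surjective (S.πi 0) := by
  intro y
  have hb : ∀ t, Function.Bijective ((S.G t).π 0) := fun t => ⟨(S.G t).inj0, (S.G t).surj0⟩
  refine ⟨⟨fun t => (LinearEquiv.ofBijective _ (hb t)).symm (y.1 t), fun s t h => ?_⟩, ?_⟩
  · apply (hb s).1
    rw [← S.ρ_π]
    have h1 : ∀ t, (S.G t).π 0 ((LinearEquiv.ofBijective _ (hb t)).symm (y.1 t)) = y.1 t :=
      fun t => (LinearEquiv.ofBijective _ (hb t)).apply_symm_apply _
    rw [h1, h1]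
    exact y.2 s t h
  · refine (S.TH 0).ext fun t => ?_
    exact (LinearEquiv.ofBijective _ (hb t)).apply_symm_apply _

/-- **the localisation of a global class is a global class** -/
theorem glob (hp : 0 < p) (t : ℝ) (h0 : 0 < t) (h : t ∉ crit) (e j : ℕ) (x : S.Fi e) :
    (S.L t h0 h).ℓ e j (S.rF t e x) ∈ LinearMap.range (S.rH (t / p) j) := by
  have hp' : (0 : ℝ) < p := Nat.cast_pos.2 hp
  have hb : Tower.Cof fun i => a i / p := ⟨fun i j hij =>
    div_le_div_of_nonneg_right (ha.mono hij) hp'.le, fun s => by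
    obtain ⟨i, hi⟩ := ha.top (s * p)
    exact ⟨i, (le_div_iff₀ hp').2 hi⟩⟩
  obtain ⟨y, hy⟩ := Tower.exists_ext (S := S.TH j) hb
    (fun i => (S.L (a i) (ha.pos i) (ha.reg i)).ℓ e j (S.rF (a i) e x)) (fun i l hil => by
      rw [← S.ℓ_ρ (a i) (a l) (ha.pos i) (ha.reg i) (ha.pos l) (ha.reg l) (ha.mono hil)]
      rw [(S.TF e).ρ_ev])
  obtain ⟨i, hi⟩ := ha.top t
  refine ⟨y, ?_⟩
  have h' : t / p ≤ a i / p := div_le_div_of_nonneg_right hi hp'.le
  rw [← (S.TH j).ρ_ev (t / p) (a i / p) h', hy i,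
    ← S.ℓ_ρ t (a i) h0 h (ha.pos i) (ha.reg i) hi h', (S.TF e).ρ_ev]

/-- the global classes at a level under bounded bars -/
theorem range_rH_eq {t t' : ℝ} (htt' : t ≤ t') (n : ℕ)
    (h : ∀ s, t' ≤ s → ∀ hs : t ≤ s,
      LinearMap.range ((S.TH n).ρ t t' htt') ≤ LinearMap.range ((S.TH n).ρ t s hs)) :
    LinearMap.range (S.rH t n) = LinearMap.range ((S.TH n).ρ t t' htt') := by
  have : ∀ i, FiniteDimensional k (S.H (a i) n) := fun i => S.finH _ (ha.pos i) (ha.reg i) _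
  exact Tower.range_ev_eq ha.toCof htt' h

/-- a class which lifts to arbitrarily high levels is global -/
theorem mem_range_rH {t : ℝ} {n : ℕ} {x : S.H t n}
    (h : ∀ s, ∃ s' ≥ s, ∃ hs : t ≤ s', x ∈ LinearMap.range ((S.TH n).ρ t s' hs)) :
    x ∈ LinearMap.range (S.rH t n) := by
  have : ∀ i, FiniteDimensional k (S.H (a i) n) := fun i => S.finH _ (ha.pos i) (ha.reg i) _
  exact Tower.mem_range_ev ha.toCof h

/-- **the Gysin criterion**: a global class lifts if its restrictions are killed by `d`. -/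
theorem mem_range_πi {n : ℕ} {x : S.Hi (n + 1)}
    (h : ∀ t, ∃ t' ≥ t, (S.G t').d n (S.rH t' (n + 1) x) = 0) :
    x ∈ LinearMap.range (S.πi (n + 1)) := by
  apply (S.exact_πi_di ha n x).1
  refine (S.TF n).ext_of fun t => ?_
  obtain ⟨t', ht', h1⟩ := h t
  exact ⟨t', ht', by rw [map_zero]; exact h1⟩

omit ha

/-- the remaining fields of `T2Sys` -/
structure Rest2 (K : ℕ) where
  two : (2 : k) = 0
  lift : ∀ n, n % 2 = 0 → Function.Surjective (S.πi n)
  topH : ∀ t, 0 < t → t ∉ crit → ∃ N, ∀ n ≥ N, Subsingleton (S.H t n)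
  /-- bounded finite bars (all parities) -/
  bars : ∀ t, 0 < t → t ∉ crit → ∀ m,
    ∑ n ∈ Finset.range m, (finrank k (S.H t n) - finrank k (LinearMap.range (S.rH t n))) ≤ K
  /-- no critical level between `s` and `t`: the restriction is bijective -/
  reg : ∀ s t (h : s ≤ t), 0 < s → (∀ x ∈ Set.Icc s t, x ∉ crit) →
    ∀ n, Function.Bijective ((S.TH n).ρ s t h)
  /-- the reversal fixes the global classes -/
  θ_r : ∀ t n x, S.θ t n (S.rH t n x) = S.rH t n x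
  /-- relative groups of admissible pairs -/
  rel : ∀ s t (h : Adm crit s t),
    Rel2 k (S.G t) (S.G s) (fun n => (S.TH n).ρ s t h.le) (fun n => (S.TF n).ρ s t h.le)
      (S.θ t) (S.θ s)
  /-- localisation of the relative groups -/
  loc : ∀ s t (h : Adm crit s t) (h' : Adm crit (s / p) (t / p)),
    Nonempty (Loc2 (rel s t h) (rel (s / p) (t / p) h') (S.L t h.pos' h.ht))

/-- the classes `y_i` -/
structure YCl (k : Type) [Field k] (p : ℕ) (crit : Set ℝ) (S : TSys2 k p crit) {K : ℕ}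
    (R : S.Rest2 K) (B0 B1 : ℝ) where
  f : ℕ → ℕ
  f_mono : StrictMono f
  f_odd : ∀ i, f i % 2 = 1
  y : ∀ i, S.Hi (f i)
  /-- the differential `d_2` vanishes on the global classes of degree `f i + 1` -/
  d2 : ∀ i s t (h : Adm crit s t) (ω : S.H s (f i)) (g : (R.rel s t h).N (f i + 1)),
    (R.rel s t h).jH (f i + 1) g ∈ LinearMap.range (S.rH t (f i + 1)) →
    (R.rel s t h).δH (f i) ω = g + (R.rel s t h).θN (f i + 1) g →
    ∃ ω' : S.H t (f i), (S.TH (f i)).ρ s t h.le (ω' + S.θ t (f i) ω') = ω + S.θ s (f i) ω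
  /-- births -/
  birth0 : ∀ t, B0 ≤ t → 0 < t → t ∉ crit → S.rH t (f 0) (y 0) ≠ 0
  birth : ∀ i s t, 0 < s → s ∉ crit → t ∉ crit → s + B1 ≤ t →
    S.rH s (f i) (y i) ≠ 0 → S.rH t (f (i + 1)) (y (i + 1)) ≠ 0

/-- **the assembly** -/
def toT2Sys (hp : 0 < p) {a : ℕ → ℝ} (ha : RegCof crit a) {K : ℕ} {B0 B1 : ℝ}
    (R : S.Rest2 K) (Y : YCl k p crit S R B0 B1) : T2Sys k p crit K B0 B1 where
  two := R.two
  H := S.H
  F := S.F
  Hi := S.Hi
  Fi := S.Fi
  G := S.G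
  L := S.L
  ui := S.ui
  πi := S.πi
  rH := S.rH
  rF := S.rF
  rF_u _ _ _ := rfl
  π_rF _ _ _ := rfl
  glob t h0 h e j x := S.glob ha hp t h0 h e j x
  lift := R.lift
  finH := S.finH
  topH := R.topH
  bars := R.bars
  ρH s t h n := (S.TH n).ρ s t h
  ρF s t h n := (S.TF n).ρ s t h
  ρH_rH s t h n x := (S.TH n).ρ_ev s t h x
  ρF_rF s t h n x := (S.TF n).ρ_ev s t h x
  ρF_u s t h n x := (S.ρ_u n s t h x).symm
  ρ_π s t h n x := (S.ρ_π n s t h x).symm
  reg := R.reg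
  θ := S.θ
  θθ := S.θθ
  θ_ρ s t h n x := S.θ_ρ n s t h x
  θ_r := R.θ_r
  rel := R.rel
  loc := R.loc
  f := Y.f
  f_mono := Y.f_mono
  f_odd := Y.f_odd
  y := Y.y
  d2 := Y.d2
  birth0 := Y.birth0
  birth := Y.birth

end TSys2

end Vale.Agent.P216.Q633
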