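import Vale.Agent.P216.Q633.Quat
import Vale.Agent.P216.Q633.Sys2
import Vale.Agent.P216.S4.Lev4
import Vale.Agent.P216.B609.Sheet

set_option linter.unusedSectionVars false

/-!
# P216, Theorem C, block [LIFT-F]: lifts of the even classes to the circle theory

The circle theory (group `Z/4`, `S4/Circ4`) of the based loops `Y s` of the unit quaternions:
`gysY`, `TFY`.  If the odd cohomology of the tower `Y` is ephemeral then so is `F` in odd degrees
(`ephF`), hence `d (q^* y) = q^* (d y) = 0` for `y` of even degree on a high level (`d_pull_eq_zero`).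
-/

open Set Topology

noncomputable section

namespace Vale.Agent.P216.Q633

open AS DV Circ.PSt S4 DV965 B64 L250 GM
open Vale.Agent.P216.B633 (Tower RegCof)

/-! ### Pull back along a map commuting with the rotations -/

section Pull

variable {E E' : Type} [PseudoMetricSpace E] [PseudoMetricSpace E'] {k : Type} [Field k]
  {I I' : Type} {m : ℕ} (Y : Sym E k I m) (Y' : Sym E' k I' m) {f : E → E'}

theorem gK_pow_pb (hf : ∀ x, f (Y.g x) = Y'.g (f x)) (n j : ℕ) (c : (ASK E' k).K n) :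
    (Y.gK n ^ j) (pbK k f n c) = pbK k f n ((Y'.gK n ^ j) c) := by
  rw [Sym.gK, Sym.gK, pbK_pow, pbK_pow]
  funext x
  rw [pbK_apply, pbK_apply, pbK_apply, pbK_apply]
  congr 1
  funext i
  exact (Function.Semiconj.iterate_right (f := f) (ga := Y.g) (gb := Y'.g) hf j).eq (x i)

theorem sumK_pb (hf : ∀ x, f (Y.g x) = Y'.g (f x)) (b : ℕ → k) (n : ℕ) (c : (ASK E' k).K n) :
    sumK Y b n (pbK k f n c) = pbK k f n (sumK Y' b n c) := by
  rw [sumK_apply, sumK_apply, map_sum]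
  refine Finset.sum_congr rfl fun i _ => ?_
  rw [gK_pow_pb Y Y' hf, map_smul]

theorem nm_pb (hf : ∀ x, f (Y.g x) = Y'.g (f x)) (n : ℕ) (c : (ASK E' k).K n) :
    H609.nm m (Y.gK n) (pbK k f n c) = pbK k f n (H609.nm m (Y'.gK n) c) := by
  unfold H609.nm
  rw [LinearMap.sum_apply, LinearMap.sum_apply, map_sum]
  exact Finset.sum_congr rfl fun i _ => gK_pow_pb Y Y' hf n i c

/-- the morphism of pairs -/
theorem isGMor_pb {X : Set E} {X' : Set E'} (h : Y.Good X) (h' : Y'.Good X')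
    (hf : ∀ x, f (Y.g x) = Y'.g (f x)) (hX : MapsTo f X X')
    (hu : ∀ ε > 0, ∃ δ > 0, ∀ x ∈ X, ∀ y ∈ X, dist x y < δ → dist (f x) (f y) < ε)
    (he : ∀ n (c : (Fin n → E') → k), Eqv Y'.a Y'.χ X' c → Eqv Y.a Y.χ X (P265.AS.pb f c)) :
    IsGMor (Sym.PA h') (Sym.PA h) (pbK k f) where
  toIsMor := IsMor.of_comm (fun {n c} hc => he _ c hc) (fun {n c} hc => by
    obtain ⟨hc, ε, hε, h0⟩ := hc
    obtain ⟨δ, hδ, h1⟩ := hu ε hε
    exact ⟨he _ c hc, δ, hδ, fun x hx => h0 _ ⟨fun i => hX (hx.1 i), fun i j =>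
      h1 _ (hx.1 i) _ (hx.1 j) (hx.2 i j)⟩⟩) (fun {n} c => pbK_d _ _ _)
  comm_g {n c} _ := by
    have := gK_pow_pb Y Y' hf n 1 c
    rw [pow_one, pow_one] at this
    change Y.gK n (pbK k f n c) - pbK k f n (Y'.gK n c) ∈ _
    rw [this, sub_self]
    exact Submodule.zero_mem _
  comm_nm {n c} _ := by
    change H609.nm m (Y.gK n) (pbK k f n c) - pbK k f n (H609.nm m (Y'.gK n) c) ∈ _
    rw [nm_pb Y Y' hf, sub_self]
    exact Submodule.zero_mem _

end Pull

/-! ### The circle theory of the based loops -/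

section Y

variable (k : Type) [Field k] (hm : Ord k 4)

/-- the symmetries -/
def symY : Sym EY k Empty 4 where
  a := a0 EY
  χ := c0 k
  g := ry (1 / (4 : ℕ) : ℝ)
  r := rv
  g_pow x := by
    have h : ∀ j : ℕ, (ry (1 / (4 : ℕ) : ℝ))^[j] x = ry (j * (1 / (4 : ℕ) : ℝ)) x := by
      intro j
      induction j with
      | zero => simp
      | succ j ih =>
        rw [Function.iterate_succ_apply', ih, ry_ry]
        congr 1
        push_cast
        ring
    rw [h, show ((4 : ℕ) : ℝ) * (1 / (4 : ℕ) : ℝ) = 1 by norm_num, ry_one]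
  r_r := rv_rv
  grg x := by rw [rv_ry, ry_ry, add_neg_cancel, ry_zero]
  a_g i := i.elim
  a_r i := i.elim

theorem goodY (s : ℝ) : (symY k).Good (Y s) where
  compact := isCompact_Y s
  cg := (LipschitzWith.of_dist_le_mul (K := 2) fun x y => dist_ry_le _ x y).continuous.continuousOn
  cr := isometry_rv.continuous.continuousOn
  mg _ hw := ry_mem hw _
  mr _ hw := rv_mem hw
  ma i := i.elim

/-- the arc from the identity to the rotation by `1 / 4` -/
def arcY (r : ℝ) (w : EY) : EY := ry (r / (4 : ℕ)) w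

theorem isArcY : Arc (symY k).g arcY where
  zero w := by rw [arcY, zero_div, ry_zero]
  one w := rfl
  comm r _ w := by
    change ry _ (ry _ w) = ry _ (ry _ w)
    rw [ry_ry, ry_ry, add_comm]

theorem ucY (s : ℝ) : UC (Y s) arcY := by
  intro ε hε
  have h1 := tendsto_modulus (max s 0)
  rw [Metric.tendsto_nhds_nhds] at h1
  obtain ⟨η, hη, h2⟩ := h1 (ε / 4) (by positivity)
  refine ⟨min η (ε / 4), lt_min hη (by positivity), fun r _ r' _ x hx y _ hr hxy => ?_⟩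
  have h3 : |r / (4 : ℕ) - r' / (4 : ℕ)| ≤ |r - r'| := by
    rw [← sub_div, abs_div]
    exact div_le_self (abs_nonneg _) (by norm_num)
  have h4 := @h2 |r / (4 : ℕ) - r' / (4 : ℕ)| (by
    rw [Real.dist_eq, sub_zero, abs_abs]
    exact h3.trans_lt (hr.trans_le (min_le_left _ _)))
  rw [Real.dist_eq, sub_zero] at h4
  have h5 := (le_abs_self _).trans_lt h4
  have h6 := dist_ry_ry_le hx (r / (4 : ℕ)) (r' / (4 : ℕ))
  have h7 := dist_ry_le (r' / (4 : ℕ)) x y
  have h8 := hxy.trans_le (min_le_right _ _)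
  have h9 := dist_triangle (ry (r / (4 : ℕ)) x) (ry (r' / (4 : ℕ)) x) (ry (r' / (4 : ℕ)) y)
  change dist (ry _ x) (ry _ y) < ε
  linarith

theorem arcGoodY (s : ℝ) : ArcGood (symY k) arcY (Y s) where
  maps r _ _ hx := ry_mem hx _
  uc := ucY s
  comm _ _ i := i.elim

/-- the pair of `Y s` -/
abbrev PY (s : ℝ) : (symY k).gcx.Pair := Sym.PA (goodY k s)

/-- the circle data -/
abbrev circY : Circ (symY k).gcx := circOf (symY k) hm (isArcY k)

theorem pstY (s : ℝ) : (circY k hm).PSt (PY k s) :=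
  S4.pst_PA _ hm _ (goodY k s) (arcGoodY k s)

/-- `H^n_{S¹}(Y s)` -/
abbrev FY (s : ℝ) (n : ℕ) : Submodule k ((PY k s).FF (n + 1)) := (pstY k hm s).F n

/-- the Gysin sequence -/
abbrev gysY (s : ℝ) : USeq k (fun n => FY k hm s n) (fun n => HU k (Y s) n) := (pstY k hm s).gys

theorem leSY {s t : ℝ} (h : s ≤ t) : (PY k t).S ≤ (PY k s).S := Cc_anti (Y_mono h)

theorem leTY {s t : ℝ} (h : s ≤ t) : (PY k t).T ≤ (PY k s).T := Zr_anti (Y_mono h) (Y_mono h)

/-- restriction on `F` -/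
def rFY {s t : ℝ} (h : s ≤ t) (n : ℕ) : FY k hm t n →ₗ[k] FY k hm s n :=
  resF (pstY k hm t) (pstY k hm s) (leSY k h) (leTY k h) n

theorem rFY_rFY {r s t : ℝ} (h : r ≤ s) (h' : s ≤ t) (n : ℕ) (x : FY k hm t n) :
    rFY k hm h n (rFY k hm h' n x) = rFY k hm (h.trans h') n x :=
  resF_resF _ _ _ _ _ _ _ _ _ n x

theorem rFY_u {s t : ℝ} (h : s ≤ t) (n : ℕ) (x : FY k hm t n) :
    rFY k hm h (n + 2) ((gysY k hm t).u n x) = (gysY k hm s).u n (rFY k hm h n x) :=
  (uF_resF (pstY k hm t) (pstY k hm s) (leSY k h) (leTY k h) n x).symm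

theorem rFY_π {s t : ℝ} (h : s ≤ t) (n : ℕ) (x : FY k hm t n) :
    hres k (Y_mono h) n ((gysY k hm t).π n x) = (gysY k hm s).π n (rFY k hm h n x) :=
  (πF_resF (pstY k hm t) (pstY k hm s) (leSY k h) (leTY k h) n x).symm

theorem rFY_d {s t : ℝ} (h : s ≤ t) (n : ℕ) (x : HU k (Y t) (n + 1)) :
    rFY k hm h n ((gysY k hm t).d n x) = (gysY k hm s).d n (hres k (Y_mono h) (n + 1) x) :=
  (dF_resH (pstY k hm t) (pstY k hm s) (leSY k h) (leTY k h) n x).symm

/-- **`F` is ephemeral in odd degrees.** -/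
theorem ephF (h1 : ∀ n, n % 2 = 1 → ∀ s : ℝ, ∃ s' : ℝ, ∃ h : s ≤ s', ∀ z : HU k (Y s') n,
    hres k (Y_mono h) n z = 0) (n : ℕ) (hn : n % 2 = 1) (s : ℝ) :
    ∃ s' : ℝ, ∃ h : s ≤ s', ∀ z : FY k hm s' n, rFY k hm h n z = 0 := by
  induction n using Nat.strong_induction_on generalizing s with
  | _ n ih =>
    rcases n with _ | _ | n
    · omega
    · obtain ⟨s', h, h2⟩ := h1 1 hn s
      refine ⟨s', h, fun z => (gysY k hm s).inj1 ?_⟩
      change (gysY k hm s).π 1 _ = (gysY k hm s).π 1 _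
      rw [← rFY_π, h2, map_zero]
    · obtain ⟨s₁, hs₁, e1⟩ := ih n (by omega) (by omega) s
      obtain ⟨s₂, hs₂, e2⟩ := h1 (n + 2) hn s₁
      refine ⟨s₂, hs₁.trans hs₂, fun z => ?_⟩
      have e3 : (gysY k hm s₁).π (n + 2) (rFY k hm hs₂ (n + 2) z) = 0 := by
        rw [← rFY_π]
        exact e2 _
      obtain ⟨w, hw⟩ := ((gysY k hm s₁).ex3 n _).1 e3
      rw [← rFY_rFY k hm hs₁ hs₂, ← hw, rFY_u, e1, map_zero]

end Y

/-! ### Pull back to a `GSys` with real rotations -/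

section Pull2

variable {Λ : Type} [PseudoMetricSpace Λ] {S : GSys Λ} (R : RotS S) (k : Type) [Field k]
  (h2 : (2 : k) = 0) (Q : Λ → EY) (hτ : ∀ x, Q (S.τ x) = Q x)
  (hg : ∀ x, Q (S.rot 4 x) = ry (1 / (4 : ℕ) : ℝ) (Q x)) {t s : ℝ} (hX : MapsTo Q (S.X t) (Y s))
  (hu : ∀ ε > 0, ∃ δ > 0, ∀ x ∈ S.X t, ∀ y ∈ S.X t, dist x y < δ → dist (Q x) (Q y) < ε)

include h2 hτ hg hX hu

theorem isGMorQ : IsGMor (PY k s) (S.P k 4 (ord_four h2).pos t) (pbK k Q) :=
  isGMor_pb (S.sym k 4 (ord_four h2).pos) (symY k) (S.good k 4 (ord_four h2).pos t) (goodY k s)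
    hg hX hu fun n c _ i x _ => by
      change c (Q ∘ (S.τ ∘ x)) = (-1) * c (Q ∘ x)
      have e : Q ∘ (S.τ ∘ x) = Q ∘ x := funext fun j => hτ _
      have e1 : (-1 : k) = 1 := by linear_combination -h2
      rw [e, e1, one_mul]

theorem commAQ {n : ℕ} (c : (ASK EY k).K n) :
    (R.circM k (ord_four h2)).A n (pbK k Q n c) - pbK k Q n ((circY k (ord_four h2)).A n c) ∈
      (S.P k 4 (ord_four h2).pos t).T.S n := by
  change sumK (S.sym k 4 (ord_four h2).pos) _ n (pbK k Q n c) - pbK k Q n (sumK (symY k) _ n c) ∈ _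
  rw [sumK_pb (S.sym k 4 (ord_four h2).pos) (symY k) hg, sub_self]
  exact Submodule.zero_mem _

/-- **`d` kills the pull backs of even classes of high levels.** -/
theorem d_pull_eq_zero (h1 : ∀ n, n % 2 = 1 → ∀ s : ℝ, ∃ s' : ℝ, ∃ h : s ≤ s', ∀ z : HU k (Y s') n,
    hres k (Y_mono h) n z = 0) {n : ℕ} (hn : n % 2 = 1) :
    ∃ s' : ℝ, ∃ h : s ≤ s', ∀ z : HU k (Y s') (n + 1),
      (R.gysM k (ord_four h2) t).d n
        ((isGMorQ k h2 Q hτ hg hX hu).mapH (n + 1) (hres k (Y_mono h) (n + 1) z)) = 0 := by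
  obtain ⟨s', h, e⟩ := ephF k (ord_four h2) h1 n hn s
  refine ⟨s', h, fun z => ?_⟩
  have h3 := dF_mapH (pstY k (ord_four h2) s) (R.pstM k (ord_four h2) t)
    (isGMorQ k h2 Q hτ hg hX hu) (fun {_ c} _ => commAQ R k h2 Q hτ hg hX hu c) n
    (hres k (Y_mono h) (n + 1) z)
  refine h3.trans ?_
  have h4 : (pstY k (ord_four h2) s).dF n (hres k (Y_mono h) (n + 1) z) = 0 :=
    (rFY_d k (ord_four h2) h n z).symm.trans (e _)
  rw [h4, map_zero]

end Pull2

end Vale.Agent.P216.Q633
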