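import Vale.Agent.P216.Q633.LiftE
import Vale.Agent.P216.Q633.Ang
import Vale.Agent.P216.DV706.PInstC
import Vale.Agent.P216.B64.MainAll

set_option linter.unusedSectionVars false

/-!
# P216-D, block [LIFT]: the Gysin map of the model sphere kills the classes `x i`, all `n ≥ 4`
-/

open Set Topology

noncomputable section

namespace Vale.Agent.P216.Q633

open AS B64 L250 GM B633 B609 Low H288 H494
open Vale.Agent.P216.B633 (Tower)

/-! ### The level `0` -/

section Zero

variable {N : Type} [MetricSpace N]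

/-- constant loops -/
def cst (x : N) : LM N := ContinuousMap.const _ x

theorem cst_mem (x : N) : cst x ∈ XL N 0 := by
  change cst x ∈ XE N (max 0 0)
  rw [max_self]
  exact mem_XE_zero.2 ⟨x, rfl⟩

theorem umap_cst : B64.UMap (univ : Set N) (XL N 0) cst :=
  ⟨fun x _ => cst_mem x, fun i => i.elim, fun ε hε => ⟨ε, hε, fun x _ y _ h => by
    refine lt_of_le_of_lt ?_ h
    exact (dist_le_iff dist_nonneg).2 fun _ => le_rfl⟩⟩

theorem umap_ev0 : B64.UMap (XL N 0) (univ : Set N) fun w => fn w 0 :=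
  ⟨fun _ _ => trivial, fun i => i.elim, fun ε hε => ⟨ε, hε, fun x _ y _ h =>
    lt_of_le_of_lt (dist_fn_le x y 0) h⟩⟩

theorem subsingleton_zero {k : Type} [Field k] {q : ℕ} (h : Subsingleton (HU k (univ : Set N) q)) :
    Subsingleton (HU k (XL N 0) q) := by
  refine ⟨fun a b => ?_⟩
  have key : ∀ z : HU k (XL N 0) q, z = 0 := by
    intro z
    have e : hpull k umap_ev0 q (hpull k umap_cst q z) = z := by
      have h1 : EqOn (cst ∘ fun w : LM N => fn w 0) id (XL N 0) := by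
        intro w hw
        change w ∈ XE N (max 0 0) at hw
        rw [max_self] at hw
        obtain ⟨x, rfl⟩ := mem_XE_zero.1 hw
        rfl
      have h2 := pull_congr (χ := c0 k) (n := q) (umap_cst.comp umap_ev0)
        (IsMap.id_of_subset (a := a0 (LM N)) (Subset.refl (XL N 0))) h1
      have h3 := LinearMap.congr_fun h2 z
      rw [pull_comp] at h3
      refine h3.trans ?_
      obtain ⟨c, hc, rfl⟩ := H.exists_mk z
      rfl
    rw [← e, Subsingleton.elim (hpull k umap_cst q z) 0, map_zero]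
  rw [key a, key b]

/-- the level `0` of a sphere -/
theorem zero_of_homeo [CompactSpace N] {n : ℕ} (e : N ≃ₜ Sph n) {k : Type} [Field k] {q : ℕ}
    (h0 : q ≠ 0) (hn : q ≠ n) : Subsingleton (HU k (XL N 0) q) := by
  refine subsingleton_zero ?_
  obtain ⟨φ, hφ⟩ := DV706.hinc_bijective k (univ : Set N) q
  have h1 := rank_of_homeo (k := k) e q
  rw [if_neg h0, if_neg hn, add_zero] at h1
  have h2 : Subsingleton (Hu k (univ : Set N) q) := rank_zero_iff.1 (le_antisymm h1 zero_le)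
  exact hφ.1.subsingleton

end Zero

/-! ### The model -/

section

variable {N : Type} [MetricSpace N] [CompactSpace N]
  {n : ℕ} (hn : 4 ≤ n) {B : ℝ} (hB : 0 < B)
  {k : Type} [Field k] {p : ℕ} (hp : 0 < p) [CharP k p] (h2 : 2 < p) (hk : (2 : k) ≠ 0)
  (X : XOut N n B k)

/-- the identity as an operator -/
def idOp {s : ℝ} : (lsysN N k hp h2).Op 1 1 s s where
  A _ := LinearMap.id
  B _ := LinearMap.id
  hπ _ _ := rfl
  hu _ _ := (one_smul k _).symm
  hd _ _ := (one_smul k _).symm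

/-- sign of the reversal, `n = 0, 3 (mod 4)` -/
def sg0 (k : Type) [Field k] (q e : ℕ) : k :=
  if e % 2 = q then (-1) ^ (e / 2) else (-1) ^ ((e + 1) / 2)

include hn hB X hk

/-- **The Gysin map kills the `x i`**, `n = 0, 3 (mod 4)`. -/
theorem d_model03 (hn4 : n % 4 = 0 ∨ n % 4 = 3) {q : ℕ} (hq : (q + 1) % 2 = (n - 1) % 2)
    (x : (THU N k (q + 1)).Lim) (s : ℝ) :
    (gysN N k hp h2 s).d q ((THU N k (q + 1)).ev s x) = 0 := by
  have hsq : ∀ l : ℕ, (-1 : k) ^ l * (-1 : k) ^ l = 1 := fun l => by rw [← mul_pow]; simp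
  refine (lsysN N k hp h2).d_ev_eq_zero (α := -1) (δ := -1) (by ring) (sg0 k ((n - 1) % 2))
    (fun t ht => ?_) (fun s hs => ?_) q (fun m e' h => ?_) x s
  · exact ⟨t + B, by linarith, fun e x => (gen_of X).mem_range hB.le ht e x⟩
  · refine ⟨s, le_rfl, (idOp hp h2).rev (invN N k hp h2 s), fun e x => ?_⟩
    obtain ⟨c, rfl⟩ := (gen_of X).exists_smul hB.le e x
    change (invN N k hp h2 s).rE e ((THU N k e).ev s (c • (gen_of X).gh e)) =
      sg0 k ((n - 1) % 2) e • (THU N k e).ev s (c • (gen_of X).gh e)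
    rw [invN_rE, map_smul, map_smul, (gen_of X).ev_gh, smul_comm _ c]
    congr 1
    by_cases hD : Deg n e
    · rcases hD with rfl | ⟨j, rfl | rfl⟩
      · rw [X.rev_zero]
        simp [sg0]
      · rw [X.rev_x, sg0, if_pos (e_par hn j), npk (B633.sign_x hn hn4 j)]
      · rw [X.rev_y, sg0, if_neg (by have := e_par hn j; omega), npk (B633.sign_y hn hn4 j)]
    · rw [X.g_zero e _ hD, map_zero, smul_zero]
  · unfold sg0
    rw [if_neg (by omega), if_pos hq]
    have h1 : (q + 1) / 2 = (e' + 1) / 2 + m := by omega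
    rw [h1, pow_add]
    intro h
    have h3 : (2 : k) * (-1) ^ ((e' + 1) / 2) = 0 := by
      linear_combination h - (-1 : k) ^ ((e' + 1) / 2) * hsq m
    have h4 : (2 : k) = (2 * (-1) ^ ((e' + 1) / 2)) * (-1 : k) ^ ((e' + 1) / 2) := by
      rw [mul_assoc, hsq, mul_one]
    rw [h3, zero_mul] at h4
    exact hk h4

/-- sign of the reversal, `n = 2 (mod 4)` -/
def sg2 (k : Type) [Field k] (e : ℕ) : k :=
  if e = 0 then 1 else if e % 2 = 1 then -(-1) ^ (e / 2) else -(-1) ^ ((e + 1) / 2)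

/-- **The Gysin map kills the `x i`**, `n = 2 (mod 4)`. -/
theorem d_model2 (hn4 : n % 4 = 2) (e₀ : N ≃ₜ Sph n) {m : ℕ} (x : (THU N k (2 * m + 1)).Lim)
    (s : ℝ) : (gysN N k hp h2 s).d (2 * m) ((THU N k (2 * m + 1)).ev s x) = 0 := by
  have hsq : ∀ l : ℕ, (-1 : k) ^ l * (-1 : k) ^ l = 1 := fun l => by rw [← mul_pow]; simp
  have hs4 : ((sgn4 n : ℤ) : k) = -1 := by
    unfold sgn4
    rw [if_neg (by omega)]
    push_cast
    rfl
  have hx0 : Nonempty N := ⟨e₀.symm (Classical.choice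
    (NormedSpace.sphere_nonempty.2 zero_le_one).to_subtype)⟩
  refine (lsysN N k hp h2).d_ev_eq_zero_low (α := -1) (δ := -1) (by ring) (sg2 k)
    (fun t ht => ?_) (fun s hs => ?_) m (fun m' e' h he => ?_) (t₀ := 0) le_rfl
    (fun i hi => ?_) ((gen_of X).gh 0) (fun x => (gen_of X).exists_smul hB.le 0 x) ?_ x s
  · exact ⟨t + B, by linarith, fun e x => (gen_of X).mem_range hB.le ht e x⟩
  · refine ⟨s, le_rfl, (idOp hp h2).rev (invN N k hp h2 s), fun e x => ?_⟩
    obtain ⟨c, rfl⟩ := (gen_of X).exists_smul hB.le e x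
    change (invN N k hp h2 s).rE e ((THU N k e).ev s (c • (gen_of X).gh e)) =
      sg2 k e • (THU N k e).ev s (c • (gen_of X).gh e)
    rw [invN_rE, map_smul, map_smul, (gen_of X).ev_gh, smul_comm _ c]
    congr 1
    by_cases hD : Deg n e
    · rcases hD with rfl | ⟨j, rfl | rfl⟩
      · rw [X.rev_zero]
        simp [sg2]
      · have h3 := B64.sign_x hn (by omega) j k
        rw [hs4] at h3
        have h4 := e_par hn j
        rw [X.rev_x, ← h3, sg2, if_neg (by omega), if_pos (by omega), neg_one_mul]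
      · have h3 := B64.sign_y hn (by omega) j k
        rw [hs4] at h3
        have h4 := e_par hn j
        rw [X.rev_y, ← h3, sg2, if_neg (by omega), if_neg (by omega), neg_one_mul]
    · rw [X.g_zero e _ hD, map_zero, smul_zero]
  · unfold sg2
    rw [if_neg he, if_neg (by omega), if_neg (by omega), if_pos (by omega)]
    have h1 : (2 * m + 1) / 2 = (e' + 1) / 2 + m' := by omega
    rw [h1, pow_add]
    intro h
    have h3 : (2 : k) * (-1) ^ ((e' + 1) / 2) = 0 := by
      linear_combination -h - (-1 : k) ^ ((e' + 1) / 2) * hsq m'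
    have h4 : (2 : k) = (2 * (-1) ^ ((e' + 1) / 2)) * (-1 : k) ^ ((e' + 1) / 2) := by
      rw [mul_assoc, hsq, mul_one]
    rw [h3, zero_mul] at h4
    exact hk h4
  · exact zero_of_homeo e₀ (by omega) (by omega)
  · intro h0
    obtain ⟨x₁⟩ := hx0
    obtain ⟨c, hc⟩ := X.span 0 0 le_rfl (XL_mono (by linarith)) (hone k (XL N (0 + B)))
    have e1 : hres k (XL_mono (show (0 : ℝ) ≤ 0 + B by linarith)) 0 (hone k (XL N (0 + B))) =
        hone k (XL N 0) := rfl
    have e2 : X.g 0 0 = 0 := h0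
    rw [e1, e2, smul_zero] at hc
    exact hone_ne x₁ 0 hc

end

/-- **The Gysin map kills the global classes `x i` of the round sphere, all `n ≥ 4`**, all odd
primes. -/
theorem d_rnd {n : ℕ} (hn : 4 ≤ n) {p : ℕ} [hpp : Fact p.Prime] (h2 : 2 < p) {q : ℕ}
    (hq : (q + 1) % 2 = (n - 1) % 2) (x : (THU (Rnd n) (ZMod p) (q + 1)).Lim) (s : ℝ) :
    (gysN (Rnd n) (ZMod p) hpp.out.pos h2 s).d q ((THU (Rnd n) (ZMod p) (q + 1)).ev s x) = 0 := by
  have hp := hpp.out
  have hk := GSys.two_ne_zero' h2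
  by_cases h4 : n % 4 = 1
  · obtain ⟨f, ε, B, hε, hB, h⟩ := xRhoGoal n hn h4 (Rnd n) Real.pi Real.pi_pos uniqSeg_rnd
      ⟨rndHomeo n⟩
    obtain ⟨X, hX⟩ := h (ZMod p) hk
    exact d_model Real.pi_pos uniqSeg_rnd hn h4 hε hB hp.pos h2 hk X hX (q := q) (by omega) x s
  · obtain ⟨B, hB, h⟩ := xGoal n hn (Rnd n) Real.pi Real.pi_pos uniqSeg_rnd ⟨rndHomeo n⟩
    obtain ⟨X⟩ := h (ZMod p) hk
    by_cases h5 : n % 4 = 2
    · obtain ⟨m, rfl⟩ : ∃ m, q = 2 * m := ⟨q / 2, by omega⟩
      exact d_model2 hn hB hp.pos h2 hk X h5 (rndHomeo n) x s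
    · exact d_model03 hn hB hp.pos h2 hk X (by omega) hq x s

end Vale.Agent.P216.Q633
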