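import Vale.Agent.P216.H126L.Lip
import Vale.Agent.P216.H126L.Grp
import Vale.Agent.P216.H799.Main3
import Vale.Agent.P216.H779C.Gom1
import Vale.Agent.P216.H311.Gom2
import Vale.Agent.P216.Q633.LiftEnd

/-!
# P216, Theorem C: everything that the instance needs about the group structure of `M ≃ S³`

`exists_pack`: one base point, one Lipschitz map `f : M → S³` close to a homeomorphism, such that
(G1), (G2), (G3) hold, for all fields, with the classes `om` of `omega3`.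
-/

open Set Topology

namespace Vale.Agent.P216.Q633

open AS B64 L250 GM H828C H269 LS

/-- A homeomorphism `M ≃ S³` normalised at a point, and Lipschitz maps close to it. -/
theorem exists_norm {M : Type} [MetricSpace M] (he : Nonempty (M ≃ₜ Sph 3)) (x₀ : M) :
    ∃ h : M ≃ₜ S3, h x₀ = 1 := by
  obtain ⟨e⟩ := he
  let h1 : M ≃ₜ S3 := e.trans H126L.sphG3
  refine ⟨h1.trans (Homeomorph.mulLeft (h1 x₀)⁻¹), ?_⟩
  change (h1 x₀)⁻¹ * h1 x₀ = 1
  exact inv_mul_cancel _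

theorem dist_sphG3 (x y : Metric.sphere (0 : EuclideanSpace ℝ (Fin 4)) 1) :
    dist (H126L.sphG3 x) (H126L.sphG3 y) = dist x y := by
  rw [Subtype.dist_eq, Subtype.dist_eq]
  exact Quaternion.linearIsometryEquivTuple.symm.dist_map _ _

/-- Lipschitz approximation of maps into the unit quaternions. -/
theorem exists_lip_S3 {M : Type} [MetricSpace M] [CompactSpace M] (h : C(M, S3)) {ε : ℝ}
    (hε : 0 < ε) : ∃ (f : C(M, S3)) (K : ℝ), 0 < K ∧
      (∀ x y, dist (f x) (f y) ≤ K * dist x y) ∧ ∀ x, dist (f x) (h x) ≤ ε := by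
  obtain ⟨g, K, hg, hc⟩ := H126L.exists_lip
    ((⟨H126L.sphG3.symm, H126L.sphG3.symm.continuous⟩ :
      C(S3, Metric.sphere (0 : EuclideanSpace ℝ (Fin 4)) 1)).comp h) hε
  refine ⟨(⟨H126L.sphG3, H126L.sphG3.continuous⟩ :
    C(Metric.sphere (0 : EuclideanSpace ℝ (Fin 4)) 1, S3)).comp g, K + 1, by positivity,
    fun x y => ?_, fun x => ?_⟩
  · change dist (H126L.sphG3 (g x)) (H126L.sphG3 (g y)) ≤ _
    rw [dist_sphG3]
    refine (hg.dist_le_mul x y).trans ?_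
    gcongr
    exact le_add_of_nonneg_right zero_le_one
  · have h1 := hc x
    change dist (g x) (H126L.sphG3.symm (h x)) ≤ ε at h1
    change dist (H126L.sphG3 (g x)) (h x) ≤ ε
    rw [← dist_sphG3, Homeomorph.apply_symm_apply] at h1
    exact h1

/-- **The package.** -/
theorem exists_pack {M : Type} [MetricSpace M] [CompactSpace M] {ρ : ℝ} (hρ : 0 < ρ)
    (hU : UniqSeg M ρ) (he : Nonempty (M ≃ₜ Sph 3)) (x₀ : M) :
    ∃ (f : C(M, S3)) (K : ℝ) (hK : 0 < K) (hf : ∀ x y, dist (f x) (f y) ≤ K * dist x y)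
      (B' : ℝ), 0 < B' ∧ ∀ (k : Type) [Field k], ∃ O : OmegaOut M 2 x₀ B' k,
        G1P k ∧ G2P hK.le hf O ∧ G3P hK.le hf x₀ k := by
  obtain ⟨h, hx⟩ := exists_norm he x₀
  obtain ⟨B', hB', hO⟩ := H799.omega3 M hρ hU he x₀
  obtain ⟨ε0, h0, G0⟩ := H779C.gom0 hρ hU h hx
  obtain ⟨ε1, h1, G1⟩ := H779C.gom1 hρ hU h hx
  obtain ⟨ε2, h2, G2⟩ := H311.gom2 hρ hU h hx
  obtain ⟨f, K, hK, hf, hc⟩ := exists_lip_S3 (⟨h, h.continuous⟩ : C(M, S3))
    (ε := min ε0 (min ε1 ε2)) (by positivity)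
  have hc0 : ∀ x, dist (f x) (h x) ≤ ε0 := fun x => (hc x).trans (min_le_left _ _)
  have hc1 : ∀ x, dist (f x) (h x) ≤ ε1 := fun x =>
    (hc x).trans ((min_le_right _ _).trans (min_le_left _ _))
  have hc2 : ∀ x, dist (f x) (h x) ≤ ε2 := fun x =>
    (hc x).trans ((min_le_right _ _).trans (min_le_right _ _))
  refine ⟨f, K, hK, hf, B', hB', fun k _ => ?_⟩
  obtain ⟨O⟩ := hO k
  refine ⟨O, fun s => ?_, fun j s hs hjs hg => G2 f K hK.le hf hc2 k hB'.le O j s hs hjs hg,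
    fun s => ?_⟩
  · obtain ⟨s', h'⟩ := G1 f K hK.le hf hc1 k hB'.le O s
    obtain ⟨hs, hz⟩ := h' s' le_rfl
    exact ⟨s', hs, fun q hq z => hz q (by omega) z⟩
  · obtain ⟨T, s', hT, h'⟩ := G0 f K hK.le hf hc0 s
    obtain ⟨hs, hKT, hz⟩ := h' s' le_rfl
    refine ⟨s', hs, T, hT, hKT, fun hg q z hz0 => ?_⟩
    obtain ⟨α, hα⟩ := hz k q
    rw [← hα z]
    have e : hpull k (H779C.umap_gM (M := M) (x₀ := x₀) hT) q
        (hpull k (umap_qm hK.le hf T) q (hres k (Y_mono hKT) q z)) = 0 := hz0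
    rw [e, map_zero]

end Vale.Agent.P216.Q633
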