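import Vale.Agent.P216.Q633.LSys
import Vale.Agent.P216.B64.Contract
import Vale.Agent.P216.DV706.TInst
import Vale.Agent.P216.DV706.WOpOf

set_option linter.unusedSectionVars false

/-!
# P216-D, block [LIFT]: the circle theory of the free loops of a compact metric space

Group `Z/p`, characteristic `p`, no deck transformation, no list of closed geodesics:
`lsysN : LSys` for `XL N s`, operators `opN` of equivariant maps.
-/

open Set Topology

noncomputable section

namespace Vale.Agent.P216.Q633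

open AS DV Circ.PSt DV965 B64 L250 GM
open Vale.Agent.P216.B633 (Tower RegCof)
open Vale.Agent.P216.Tight923 (Inv)

/-- the tower of the cohomology of the free loops -/
def THU (M : Type) [MetricSpace M] (k : Type) [Field k] (q : ℕ) :
    Tower k fun t => HU k (XL M t) q where
  ρ _ _ h := hres k (XL_mono h) q
  ρ_id _ x := res_refl _ x
  ρ_ρ _ _ _ _ _ x := res_res _ _ x

section

variable (N : Type) [MetricSpace N] (k : Type) [Field k] {p : ℕ} (hp : 0 < p)

/-- the symmetries -/
def symN : Sym (LM N) k Empty p where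
  a := a0 (LM N)
  χ := c0 k
  g := rot (1 / p : ℝ)
  r := L250.rev
  g_pow x := by
    have h : ∀ j : ℕ, (rot (1 / p : ℝ))^[j] x = rot (j * (1 / p : ℝ)) x := by
      intro j
      induction j with
      | zero => simp
      | succ j ih =>
        rw [Function.iterate_succ_apply', ih, rot_rot]
        congr 1
        push_cast
        ring
    have hp' : (p : ℝ) ≠ 0 := Nat.cast_ne_zero.2 hp.ne'
    rw [h, mul_one_div_cancel hp', rot_one]
  r_r := rev_rev
  grg x := by rw [rev_rot, rot_rot, add_neg_cancel, rot_zero]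
  a_g i := i.elim
  a_r i := i.elim

theorem goodN [CompactSpace N] (s : ℝ) : (symN N k hp).Good (XL N s) where
  compact := isCompact_XE (le_max_right _ _)
  cg := (isometry_rot _).continuous.continuousOn
  cr := isometry_rev.continuous.continuousOn
  mg _ hw := rot_mem hw _
  mr _ hw := rev_mem hw
  ma i := i.elim

variable {N} in
/-- the arc from the identity to the rotation by `1 / p` -/
def arcN (p : ℕ) (r : ℝ) (w : LM N) : LM N := rot (r / p) w

theorem isArcN : Arc (symN N k hp).g (arcN p) where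
  zero w := by rw [arcN, zero_div, rot_zero]
  one w := rfl
  comm r _ w := by
    change rot _ (rot _ w) = rot _ (rot _ w)
    rw [rot_rot, rot_rot, add_comm]

variable {N} in
include hp in
theorem ucN (s : ℝ) : UC (XL N s) (arcN p) := by
  intro ε hε
  have h1 := tendsto_modulus (max s 0)
  rw [Metric.tendsto_nhds_nhds] at h1
  obtain ⟨η, hη, h2⟩ := h1 (ε / 2) (by positivity)
  refine ⟨min η (ε / 2), lt_min hη (by positivity), fun r _ r' _ x hx y _ hr hxy => ?_⟩
  have hp1 : (1 : ℝ) ≤ p := by exact_mod_cast hp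
  have h3 : |r / p - r' / p| ≤ |r - r'| := by
    rw [← sub_div, abs_div, Nat.abs_cast]
    exact div_le_self (abs_nonneg _) hp1
  have h4 := @h2 |r / p - r' / p| (by
    rw [Real.dist_eq, sub_zero, abs_abs]
    exact h3.trans_lt (hr.trans_le (min_le_left _ _)))
  rw [Real.dist_eq, sub_zero] at h4
  have h5 := (le_abs_self _).trans_lt h4
  have h6 := dist_rot_le (le_max_right s 0) hx (r / p) (r' / p)
  have h7 : dist (rot (r' / p) x) (rot (r' / p) y) = dist x y := (isometry_rot _).dist_eq x y
  have h8 := hxy.trans_le (min_le_right _ _)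
  have h9 := dist_triangle (rot (r / p) x) (rot (r' / p) x) (rot (r' / p) y)
  change dist (rot _ x) (rot _ y) < ε
  linarith

theorem arcGoodN (s : ℝ) : ArcGood (symN N k hp) (arcN p) (XL N s) where
  maps _ _ _ hx := rot_mem hx _
  uc := ucN hp s
  comm _ _ i := i.elim

variable [CompactSpace N] [CharP k p] (h2 : 2 < p)

/-- the pair of `XL N s` -/
abbrev PN (s : ℝ) : (symN N k hp).gcx.Pair := Sym.PA (goodN N k hp s)

/-- the circle data -/
abbrev circN : Circ (symN N k hp).gcx := circSym (symN N k hp) h2 (isArcN N k hp)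

theorem pstN (s : ℝ) : (circN N k hp h2).PSt (PN N k hp s) :=
  pst_PA _ h2 _ (goodN N k hp s) (arcGoodN N k hp s)

/-- `H^n_{S¹}(XL N s)` -/
abbrev FN (s : ℝ) (n : ℕ) : Submodule k ((PN N k hp s).FF (n + 1)) := (pstN N k hp h2 s).F n

/-- the Gysin sequence -/
abbrev gysN (s : ℝ) : USeq k (fun n => FN N k hp h2 s n) (fun n => HU k (XL N s) n) :=
  (pstN N k hp h2 s).gys

theorem leSN {s t : ℝ} (h : s ≤ t) : (PN N k hp t).S ≤ (PN N k hp s).S := Cc_anti (XL_mono h)

theorem leTN {s t : ℝ} (h : s ≤ t) : (PN N k hp t).T ≤ (PN N k hp s).T :=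
  Zr_anti (XL_mono h) (XL_mono h)

/-- the reversal on the Gysin sequence -/
def invN (s : ℝ) : Inv (gysN N k hp h2 s) :=
  (pstN N k hp h2 s).inv (Sym.PA_rstable _) (circSym_rcomp (symN N k hp) h2 (isArcN N k hp))

/-- the tower of the `H^n_{S¹}(XL N t)` -/
def TFN (n : ℕ) : Tower k fun t => FN N k hp h2 t n where
  ρ s t h := resF (pstN N k hp h2 t) (pstN N k hp h2 s) (leSN N k hp h) (leTN N k hp h) n
  ρ_id _ x := resF_refl _ _ _ n x
  ρ_ρ _ _ _ _ _ x := resF_resF _ _ _ _ _ _ _ _ _ n x

/-- **The tower of Gysin sequences of the free loops of `N`.** -/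
def lsysN : LSys k (fun t n => FN N k hp h2 t n) (fun t n => HU k (XL N t) n) where
  TH := THU N k
  TF := TFN N k hp h2
  G := gysN N k hp h2
  ρ_u n s t h x :=
    (uF_resF (pstN N k hp h2 t) (pstN N k hp h2 s) (leSN N k hp h) (leTN N k hp h) n x).symm
  ρ_π n s t h x :=
    (πF_resF (pstN N k hp h2 t) (pstN N k hp h2 s) (leSN N k hp h) (leTN N k hp h) n x).symm
  ρ_d n s t h x :=
    (dF_resH (pstN N k hp h2 t) (pstN N k hp h2 s) (leSN N k hp h) (leTN N k hp h) n x).symm

theorem invN_rE (s : ℝ) (n : ℕ) (x : HU k (XL N s) n) :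
    (invN N k hp h2 s).rE n x = hpull k (umap_rev s) n x := by
  obtain ⟨c, hc, rfl⟩ := H.exists_mk x
  rfl

variable {N} {s t : ℝ} {f : LM N → LM N} (hf : UMap (XL N s) (XL N t) f)
  (hr : ∀ x ∈ XL N s, f (rot (1 / p : ℝ) x) = rot (1 / p : ℝ) (f x))

omit [CharP k p] in
include hf hr in
theorem isGMorN : IsGMor (PN N k hp t) (PN N k hp s) (pbK k f) :=
  isGMor_pbK (symN N k hp) (goodN N k hp s) (goodN N k hp t) hf hr

include hr in
theorem commAN {n : ℕ} (c : (ASK (LM N) k).K n) :
    (circN N k hp h2).A n (pbK k f n c) - pbK k f n ((circN N k hp h2).A n c) ∈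
      (PN N k hp s).T.S n :=
  comm_A (symN N k hp) h2 _ (goodN N k hp s) hr c

/-- **The operator of an equivariant map.** -/
def opN : (lsysN N k hp h2).Op 1 1 t s where
  A n := mapF (pstN N k hp h2 t) (pstN N k hp h2 s) (isGMorN k hp hf hr)
    (fun {_ c} _ => commAN k hp h2 hr c) n
  B n := hpull k hf n
  hπ n x := (πF_mapF (pstN N k hp h2 t) (pstN N k hp h2 s) (isGMorN k hp hf hr)
    (fun {_ c} _ => commAN k hp h2 hr c) n x).symm
  hu n x := ((one_smul k _).trans (uF_mapF (pstN N k hp h2 t) (pstN N k hp h2 s)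
    (isGMorN k hp hf hr) (fun {_ c} _ => commAN k hp h2 hr c) n x)).symm
  hd n x := ((one_smul k _).trans (dF_mapH (pstN N k hp h2 t) (pstN N k hp h2 s)
    (isGMorN k hp hf hr) (fun {_ c} _ => commAN k hp h2 hr c) n x)).symm

theorem opN_B (n : ℕ) (x : HU k (XL N t) n) : (opN k hp h2 hf hr).B n x = hpull k hf n x := rfl

end

end Vale.Agent.P216.Q633
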